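import Vale.Agent.P167.H685.Q.Defs
import Vale.Agent.P167.H704.Q.Link

/-!
# P167, general `q`, block Q-NSYM: the gate on constant half annuli, statements

Conventions of `H685/Q/Defs` (`EQ`, `PQ`, `Gq`, `TC`, `hbF`, `Wr`). A strand which goes down has its left
(primal) bank in the east and its right (dual) bank in the west.
-/

namespace Vale.Agent.P167.H318.UQ

open Finset Vale.Agent.P167 Vale.Agent.P167.FK Vale.Agent.P167.FKA Vale.Agent.P167.H318 Relation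
open Vale.Agent.P145.FB (PStep PConn)
open Vale.Agent.P167.H685.Q (EQ PQ Gq TC win hbF Wr One Ent ESCQ SMQ Chi)

/-! ### shapes -/

/-- the rectangle `[a, b] × [c, d]` of squares -/
noncomputable def Rc (a b c d : ℤ) : Finset (ℤ × ℤ) := Finset.Icc a b ×ˢ Finset.Icc c d

theorem mem_Rc {a b c d : ℤ} {v : ℤ × ℤ} :
    v ∈ Rc a b c d ↔ (a ≤ v.1 ∧ v.1 ≤ b) ∧ c ≤ v.2 ∧ v.2 ≤ d := by
  simp [Rc, Finset.mem_product]

/-- joined by open squares of `A` -/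
def Oc (A : Finset (ℤ × ℤ)) (ξ : Cfg) (s t : ℤ × ℤ) : Prop := PConn (op ξ ∩ ↑A) Set.univ s t

/-- joined by dual edges of closed squares of `A` -/
def Dc (A : Finset (ℤ × ℤ)) (ξ : Cfg) (s t : ℤ × ℤ) : Prop := PConn ((op ξ)ᶜ ∩ ↑A) Set.univ s t

/-- the left bank of the explored strand (primal sites) -/
def LB (S : St) (s : ℤ × ℤ) : Prop := ∃ i ≤ S.m, ls (H318.st S.e0 S.z i) = s

/-- the right bank of the explored strand (dual sites) -/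
def RB (S : St) (s : ℤ × ℤ) : Prop := ∃ i ≤ S.m, rs (H318.st S.e0 S.z i) = s

/-! ### (1) arcs from the banks to the side, in a half annulus around a hole which contains the tip -/

/-- the half annulus -/
noncomputable def An (b r R : ℤ) : Finset (ℤ × ℤ) := hbF b R \ hbF b r

/-- only the explored strand is revealed in the half box of radius `R`; the tip is in the hole, the
column below the tip is fresh -/
structure AG (S : St) (b r R : ℤ) : Prop extends St.Ok S where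
  gq : Gq S b R
  mem : ∀ v ∈ HB b R, v ∈ S.D
  not : ∀ x, b - R ≤ x → x ≤ b + R → (x, (-1 : ℤ)) ∉ S.D
  po : PO S (HB b R)
  tip : hdv S.tip ∈ HB b r
  cl : ∀ y, 0 ≤ y → y ≤ (hdv S.tip).2 → ((hdv S.tip).1, y) ∈ S.F

/-- an open path from the left bank to the bottom in the east -/
def OArc (S : St) (b r R : ℤ) (ξ : Cfg) : Prop :=
  ∃ s p : ℤ × ℤ, LB S s ∧ p.2 = 0 ∧ b + r < p.1 ∧ Oc (S.F ∩ An b r R) ξ s p

/-- a dual path from the right bank to the bottom in the west -/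
def DArc (S : St) (b r R : ℤ) (ξ : Cfg) : Prop :=
  ∃ s p : ℤ × ℤ, RB S s ∧ p.2 = 0 ∧ p.1 < b - r ∧ Dc (S.F ∩ An b r R) ξ s p

/-- raw open arc around the hole -/
def ROA (b r R : ℤ) (ξ : Cfg) : Prop := ∃ p p' : ℤ × ℤ,
  p.2 = 0 ∧ b + r < p.1 ∧ p'.2 = 0 ∧ p'.1 ≤ b - r ∧ Oc (An b r R) ξ p p'

/-- raw dual arc around the hole -/
def RDA (b r R : ℤ) (ξ : Cfg) : Prop := ∃ p p' : ℤ × ℤ,
  p.2 = 0 ∧ b + r < p.1 ∧ p'.2 = 0 ∧ p'.1 ≤ b - r ∧ Dc (An b r R) ξ p p'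

/-- closed below the side in the box, open elsewhere -/
noncomputable def owq (b R : ℤ) : Cfg := cf (Rc (b - R - 1) (b + R + 1) (-R - 1) (-1)) eta1 ∅

/-- **RAWO** (from SRSW): free boundary conditions -/
def RAWO (Q : ℝ) : Prop := ∃ (Λ : ℤ) (c : ℝ), 2 ≤ Λ ∧ 0 < c ∧ ∀ b r : ℤ, 1 ≤ r →
  c ≤ FK.Pr Q (An b r (Λ * r)) eta0 {ξ | ROA b r (Λ * r) ξ}

/-- **RAWD** (from RSW): wired outside, closed below the side -/
def RAWD (Q : ℝ) : Prop := ∃ (Λ : ℤ) (c : ℝ), 2 ≤ Λ ∧ 0 < c ∧ ∀ b r : ℤ, 1 ≤ r →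
  c ≤ FK.Pr Q (An b r (Λ * r)) (owq b (Λ * r)) {ξ | RDA b r (Λ * r) ξ}

/-- **ARCO**: an open arc from the left bank to the bottom in the east, uniformly in the past and in
everything off the half annulus.
Proof: let `W` be the primal sites joined to the bottom in the east by squares of `S.F ∩ An` (any state)
through sites not on the left bank `X`, `C` = squares of `S.F ∩ An` with a corner in `W \ X`. By the
potential of the explored strand (completed through the hole) no visited square has a corner in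
`W \ X`. So the primal corners common to `C` and `An \ C` are in `X` (`Wd`), `H704.bank`. -/
def ARCO (Q : ℝ) : Prop := ∃ Λ0 : ℤ, ∀ Λ : ℤ, Λ0 ≤ Λ → ∃ c : ℝ, 0 < c ∧
  ∀ (S : St) (b r : ℤ) (ζ : Cfg), 1 ≤ r → AG S b r (Λ * r) → Good ζ → (∀ v, v ∉ S.F → ζ v = S.z v) →
  c ≤ FK.Pr Q (S.F ∩ An b r (Λ * r)) ζ {ξ | OArc S b r (Λ * r) ξ}

/-- **ARCD**: a dual arc from the right bank to the bottom in the west -/
def ARCD (Q : ℝ) : Prop := ∃ Λ0 : ℤ, ∀ Λ : ℤ, Λ0 ≤ Λ → ∃ c : ℝ, 0 < c ∧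
  ∀ (S : St) (b r : ℤ) (ζ : Cfg), 1 ≤ r → AG S b r (Λ * r) → Good ζ → (∀ v, v ∉ S.F → ζ v = S.z v) →
  c ≤ FK.Pr Q (S.F ∩ An b r (Λ * r)) ζ {ξ | DArc S b r (Λ * r) ξ}

/-! ### (2) first entrance of a lower zone near the abscissa of the tip -/

/-- **HIT**: from a tip at height `4 l` the strand first comes down to height `4 n` within `m` of `x`,
and stays in the half box of radius `20 l` until then -/
def HIT (Q : ℝ) : Prop := ∀ K : ℤ, ∃ (c : ℝ) (n0 : ℤ), 0 < c ∧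
  ∀ (S : St) (l x ρ n m : ℤ), n0 ≤ m → m ≤ n → 8 * n ≤ l → l ≤ K * m → 20 * l ≤ ρ → TC S l x ρ →
  c ≤ PQ Q S {ξ | (∃ y, H318.st S.e0 ξ (hit S.D S.e0 (Lo x ρ (4 * n)) ξ) = Sum.inr (y, 4 * n - 1) ∧
      |y - x| ≤ m) ∧
    ∀ j, S.m ≤ j → j < hit S.D S.e0 (Lo x ρ (4 * n)) ξ → hdv (H318.st S.e0 ξ j) ∈ HB x (20 * l)}

/-! ### (3) the gate -/

/-- the central box `C`: half width `K3 n`, height `4 n` -/
noncomputable def Cq (K3 x n : ℤ) : Finset (ℤ × ℤ) := Rc (x - K3 * n) (x + K3 * n) 0 (4 * n - 1)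

/-- the half annulus `A` around `C` -/
noncomputable def Aq (K3 K x n : ℤ) : Finset (ℤ × ℤ) := hbF x (K * n) \ Cq K3 x n

/-- `e` is a gate on the top side of `C` for the configuration `γ` of `A` -/
def Gt (K3 K x n : ℤ) (γ : Cfg) (e : Ed) : Prop :=
  (∃ y, e = Sum.inr (y, 4 * n - 1) ∧ Odd y ∧ |y - x| ≤ 4 * n) ∧
  (∃ p : ℤ × ℤ, p.2 = 0 ∧ x < p.1 ∧ Oc (Aq K3 K x n) γ (ls e) p) ∧
  (∃ p : ℤ × ℤ, p.2 = 0 ∧ p.1 < x ∧ Dc (Aq K3 K x n) γ (rs e) p)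

/-- east tube at height `[n, 2 n)`, off `I = hbF x (K n)` -/
noncomputable def Te (K x n : ℤ) : Finset (ℤ × ℤ) := Rc (x + K * n + 1) (x + 2 * (K * n)) n (2 * n - 1)

/-- west tube -/
noncomputable def Tw (K x n : ℤ) : Finset (ℤ × ℤ) := Rc (x - 2 * (K * n)) (x - K * n - 1) n (2 * n - 1)

/-- the left site of the gate is joined to the far end of the east tube at height `≥ n` -/
def ArE (K3 K x n : ℤ) (ξ : Cfg) (e : Ed) : Prop := ∃ b : ℤ × ℤ, x + 2 * (K * n) ≤ b.1 ∧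
  Oc ((Aq K3 K x n ∪ Te K x n).filter fun v => n ≤ v.2) ξ (ls e) b

/-- the right site of the gate is joined to the far end of the west tube at height `≥ n` -/
def ArW (K3 K x n : ℤ) (ξ : Cfg) (e : Ed) : Prop := ∃ b : ℤ × ℤ, b.1 ≤ x - 2 * (K * n) + 1 ∧
  Dc ((Aq K3 K x n ∪ Tw K x n).filter fun v => n ≤ v.2) ξ (rs e) b

/-- the strand which starts at `e` enters the zone of height `4 l'` at distance `≤ (K3 - 1) n` of `x`,
before it leaves `I` -/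
def Ctr (K3 K x n l' : ℤ) (ξ : Cfg) (e : Ed) : Prop :=
  hit (hbF x (K * n)) e (Lo x (K * n) (4 * l')) ξ < ex (hbF x (K * n)) e ξ ∧
  |(hdv (H318.st e ξ (hit (hbF x (K * n)) e (Lo x (K * n) (4 * l')) ξ))).1 - x| ≤ (K3 - 1) * n

/-- **GREF**: probability of a gate with arms, reference law. Proof: it is enough to bound the
probability for one state of type `TC` (`rat_bdy_dom`); `HIT` twice (heights `4 K4 n` and `4 n`, window
`m = n`), arcs of `ARCO`, `ARCD` around `C` below height `4 K4 n`, open / dual crossings of two tubes at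
height `[n, 2 n)` from inside these arcs to `x ± 2 K n`, `ESCQ` for `Ctr`. -/
def GREF (Q : ℝ) : Prop := ∃ K3 K K00 : ℤ, 8 ≤ K3 ∧ K3 + 8 ≤ K ∧ ∀ K0 : ℤ, K00 ≤ K0 →
  ∃ (n0 : ℤ) (c : ℝ), 1 ≤ n0 ∧ 0 < c ∧ ∀ x n l' : ℤ, Odd x → n0 ≤ n → 1 ≤ l' → 4 * l' ≤ n →
  c ≤ FK.Pr Q (hbF x (K0 * n)) eta0 {ξ | ∃ e, Gt K3 K x n ξ e ∧ ArE K3 K x n ξ e ∧
    ArW K3 K x n ξ e ∧ Ctr K3 K x n l' ξ e}

/-- sites at height at least `h`, near `x` -/
def Uh (x ρ h : ℤ) : Set (ℤ × ℤ) := {v | x - ρ ≤ v.1 ∧ v.1 ≤ x + ρ + 1 ∧ h ≤ v.2 ∧ v.2 ≤ ρ + 1}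

/-- **the links**: the sites of the gate are joined to the banks of the explored strand, off `C` and at
height `≥ n` -/
def Lnk (K3 : ℤ) (S : St) (x n ρ : ℤ) (e : Ed) : Set Cfg := {ω |
  (∃ i ≤ S.m, PConn (op ω ∩ (↑(Cq K3 x n))ᶜ) (Uh x ρ n) (ls e) (ls (H318.st S.e0 S.z i))) ∧
  (∃ i ≤ S.m, PConn ((op ω)ᶜ ∩ (↑(Cq K3 x n))ᶜ) (Uh x ρ n) (rs e) (rs (H318.st S.e0 S.z i)))}

/-- **MINOR** (minorization). Proof: the arms `ArE`, `ArW` are prolonged to the banks by `lk_ge` and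
`ext2` in two disjoint sets of squares off `I`; `rat_bdy_dom`. -/
def MINOR (Q : ℝ) : Prop := ∀ K3 K : ℤ, 8 ≤ K3 → K3 + 8 ≤ K → ∃ K00 : ℤ, ∀ K0 : ℤ, K00 ≤ K0 →
  ∃ (K1 n0 : ℤ) (c : ℝ), K ≤ K1 ∧ 1 ≤ n0 ∧ 0 < c ∧ ∀ (S : St) (l x ρ n : ℤ) (γ : Cfg) (e : Ed),
  n0 ≤ n → K1 * n ≤ l → l ≤ 2 * K1 * n → 20 * l ≤ ρ → TC S l x ρ → Gt K3 K x n γ e →
  c * FK.Pr Q (hbF x (K0 * n)) eta0 {ξ | (∀ v ∈ Aq K3 K x n, ξ v = γ v) ∧ ArE K3 K x n ξ e ∧
    ArW K3 K x n ξ e} ≤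
  PQ Q S ({ξ | ∀ v ∈ Aq K3 K x n, ξ v = γ v} ∩ Lnk K3 S x n ρ e)

/-- **ONE** (deterministic): given a gate, every strand which comes from outside of `I` and reaches `C`
passes the gate -/
def ONE : Prop := ∀ (K3 K x n : ℤ) (ξ : Cfg) (e : Ed), 1 ≤ n → 8 ≤ K3 → K3 + 8 ≤ K → Gt K3 K x n ξ e →
  (∀ y, x - K * n - 1 ≤ y → y ≤ x + K * n + 1 → ξ (y, -1) = false) →
  One (Wr x (K * n)) ↑(Cq K3 x n) ξ

/-- **AFT** (deterministic): after the gate the strand lands before it leaves `I` -/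
def AFT : Prop := ∀ (K3 K x n : ℤ) (ξ : Cfg) (e : Ed), 1 ≤ n → 8 ≤ K3 → K3 + 8 ≤ K → Good ξ →
  Gt K3 K x n ξ e →
  ∃ y, H318.st e ξ (ex (hbF x (K * n)) e ξ) = Sum.inr (y, -1) ∧ x - K * n ≤ y ∧ y ≤ x + K * n

end Vale.Agent.P167.H318.UQ
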