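import Vale.Agent.P167.H318.Q.Top

/-!
# P167, general `q`, block Q-NSYM: every strand which comes from outside and reaches `C` passes the gate
-/

namespace Vale.Agent.P167.H318.UQ

open Finset Vale.Agent.P167 Vale.Agent.P167.FK Vale.Agent.P167.H318 Relation
open Vale.Agent.P145.FB (PStep PConn)
open Vale.Agent.P167.H685.Q (hbF mem_hbF Wr One Ent)
open Vale.Agent.P167.H632 (Ex sq_inl sq_inr ex_rect)
open Vale.Agent.P167.H318 (st ex hit cnt)

theorem row_strict {u : ℤ × ℤ → ℤ} {a b t s0 : ℤ} (h0 : a ≤ s0) (h0' : s0 < b)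
    (h : ∀ s, a ≤ s → s < b → u (s, t) ≤ u (s + 1, t)) (hs : u (s0, t) < u (s0 + 1, t)) :
    u (a, t) < u (b, t) :=
  (row_mono h0 fun s h1 h2 => h s h1 (by omega)).trans_lt
    (hs.trans_le (row_mono (by omega) fun s h1 h2 => h s (by omega) h2))

theorem col_strict {u : ℤ × ℤ → ℤ} {a b t s0 : ℤ} (h0 : a ≤ s0) (h0' : s0 < b)
    (h : ∀ s, a ≤ s → s < b → u (t, s) ≤ u (t, s + 1)) (hs : u (t, s0) < u (t, s0 + 1)) :
    u (t, a) < u (t, b) :=
  (col_mono h0 fun s h1 h2 => h s h1 (by omega)).trans_lt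
    (hs.trans_le (col_mono (by omega) fun s h1 h2 => h s (by omega) h2))

/-- **A strand of `A` which leaves `A` through the inner part of its boundary, and not through the
gate, enters through the inner part.** -/
theorem inner {K3 K x n : ℤ} {ξ : Cfg} {g e : Ed} {N : ℕ} {p p' : ℤ × ℤ} (hn : 1 ≤ n) (h8 : 8 ≤ K3)
    (hK : K3 + 8 ≤ K) (hG : Gt K3 K x n ξ e) (hp2 : p.2 = 0) (hp1 : x + K3 * n + 1 ≤ p.1)
    (hp3 : p.1 ≤ x + K * n + 1) (hp : Oc (Aq K3 K x n) ξ (ls e) p) (hq2 : p'.2 = 0)
    (hq1 : p'.1 ≤ x - K3 * n) (hq3 : x - K * n ≤ p'.1) (hq : Dc (Aq K3 K x n) ξ (rs e) p')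
    (hN1 : 1 ≤ N) (h0 : tlv g ∉ Aq K3 K x n) (hin : ∀ k < N, hdv (st g ξ k) ∈ Aq K3 K x n)
    (hN : hdv (st g ξ N) ∉ Aq K3 K x n) (he : ∀ k ≤ N, st g ξ k ≠ e)
    (hinner : hdv (st g ξ N) ∈ Cq K3 x n ∨ ∃ y, p'.1 ≤ y ∧ y < p.1 ∧ st g ξ N = Sum.inr (y, -1)) :
    tlv g ∈ Cq K3 x n ∨ ∃ y, p'.1 ≤ y ∧ y < p.1 ∧ g = Sum.inr (y, -1) := by
  classical
  by_contra hcon
  rw [not_or] at hcon
  obtain ⟨hc1, hc2⟩ := hcon
  have hA3 : 8 * n ≤ K3 * n := by nlinarith
  have hAK : K3 * n + 8 * n ≤ K * n := by nlinarith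
  obtain ⟨y, hy, he0, e1, e2, e3, e4⟩ := gt_hdv hG
  have hy' := abs_le.1 hy
  have hEx : Ex (↑(Aq K3 K x n) : Set (ℤ × ℤ)) := ex_of_coConn (co_Aq (by omega) (by omega))
  obtain ⟨u, hu⟩ := walk_pot hEx (e0 := g) (ξ := ξ) (n := N) (by exact_mod_cast h0)
    (by exact_mod_cast hN)
  have hu' : ∀ b : Ed, (hdv b ∈ Aq K3 K x n ∨ tlv b ∈ Aq K3 K x n) →
      u (ls b) = u (rs b) + cnt g ξ N b := fun b hb => hu b (by exact_mod_cast hb)
  have f1 : u (ls e) = u p := pot_Oc hu (by exact_mod_cast h0) (by exact_mod_cast hN)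
    (fun v hv => by exact_mod_cast hv) (H318.even_ls _) hp
  have f2 : u (rs e) = u p' := pot_Dc hu (by exact_mod_cast h0) (by exact_mod_cast hN)
    (fun v hv => by exact_mod_cast hv) (H318.odd_rs _) hq
  have hnn : ∀ b, 0 ≤ cnt g ξ N b := cnt_nonneg g ξ N
  -- inner entrances are not passed
  have hz : ∀ b : Ed, tlv b ∉ Aq K3 K x n →
      (tlv b ∈ Cq K3 x n ∨ ∃ y, p'.1 ≤ y ∧ y < p.1 ∧ b = Sum.inr (y, -1)) → cnt g ξ N b = 0 := by
    intro b hb1 hb2
    by_contra hne
    obtain ⟨k, hk, hkb⟩ := cnt_pos hne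
    rcases Nat.eq_zero_or_pos k with h | h
    · subst h
      rw [Bs.st_zero] at hkb
      subst hkb
      rcases hb2 with hb2 | ⟨y', h1, h2, h3⟩
      · exact hc1 hb2
      · exact hc2 ⟨y', h1, h2, h3⟩
    · apply hb1
      rw [← hkb, show k = k - 1 + 1 by omega, Bs.tlv_st]
      exact hin _ (by omega)
  -- the steps
  have memA : ∀ v : ℤ × ℤ, v ∈ Aq K3 K x n ↔
      ((x - K * n ≤ v.1 ∧ v.1 ≤ x + K * n) ∧ 0 ≤ v.2 ∧ v.2 ≤ K * n) ∧
      ¬ ((x - K3 * n ≤ v.1 ∧ v.1 ≤ x + K3 * n) ∧ 0 ≤ v.2 ∧ v.2 ≤ 4 * n - 1) := fun v => mem_Aq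
  have memC : ∀ v : ℤ × ℤ, v ∈ Cq K3 x n ↔
      (x - K3 * n ≤ v.1 ∧ v.1 ≤ x + K3 * n) ∧ 0 ≤ v.2 ∧ v.2 ≤ 4 * n - 1 := fun v => mem_Rc
  -- bottom row
  have rowb : ∀ s, p'.1 ≤ s → s < p.1 → (s < x - K3 * n ∨ x + K3 * n < s) →
      u (s, 0) ≤ u (s + 1, 0) ∧ (tlv (Sum.inr (s, -1)) = (s, 0) →
        u (s + 1, 0) = u (s, 0) + cnt g ξ N (Sum.inr (s, -1))) := by
    intro s h1 h2 h3
    have hm : (s, (0 : ℤ)) ∈ Aq K3 K x n := by
      rw [memA]; dsimp only; omega
    have hm' : (s, (-1 : ℤ)) ∉ Aq K3 K x n := by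
      rw [memA]; dsimp only; omega
    have hnn' := hnn (Sum.inr (s, -1))
    rcases sq_inr (s, (-1 : ℤ)) with ⟨a1, a2, -, a3, a4⟩ | ⟨a1, a2, -, a3, a4⟩
    · have h9 := hu' (Sum.inr (s, -1)) (Or.inr (by rw [a2]; simpa using hm))
      rw [a3, a4] at h9
      simp only [neg_add_cancel] at h9
      exact ⟨by omega, fun _ => h9⟩
    · have h9 := hu' (Sum.inr (s, -1)) (Or.inl (by rw [a1]; simpa using hm))
      have h10 := hz (Sum.inr (s, -1)) (by rw [a2]; exact hm') (Or.inr ⟨s, h1, h2, rfl⟩)
      rw [a3, a4, h10] at h9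
      simp only [neg_add_cancel, add_zero] at h9
      refine ⟨by omega, fun h11 => ?_⟩
      rw [a2, Prod.mk.injEq] at h11
      omega
  -- top row of `C`
  have rowt : ∀ s, x - K3 * n ≤ s → s ≤ x + K3 * n →
      u (s, 4 * n) ≤ u (s + 1, 4 * n) ∧ (tlv (Sum.inr (s, 4 * n - 1)) = (s, 4 * n) →
        u (s + 1, 4 * n) = u (s, 4 * n) + cnt g ξ N (Sum.inr (s, 4 * n - 1))) := by
    intro s h1 h2
    have hm : (s, 4 * n) ∈ Aq K3 K x n := by
      rw [memA]; dsimp only; omega
    have hm' : (s, 4 * n - 1) ∉ Aq K3 K x n := by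
      rw [memA]; dsimp only; omega
    have hm'' : (s, 4 * n - 1) ∈ Cq K3 x n := by
      rw [memC]; dsimp only; omega
    have hnn' := hnn (Sum.inr (s, 4 * n - 1))
    have ee : 4 * n - 1 + 1 = 4 * n := by ring
    rcases sq_inr (s, 4 * n - 1) with ⟨a1, a2, -, a3, a4⟩ | ⟨a1, a2, -, a3, a4⟩
    · have h9 := hu' (Sum.inr (s, 4 * n - 1)) (Or.inr (by rw [a2]; simpa [ee] using hm))
      rw [a3, a4] at h9
      simp only [ee] at h9
      exact ⟨by omega, fun _ => h9⟩
    · have h9 := hu' (Sum.inr (s, 4 * n - 1)) (Or.inl (by rw [a1]; simpa [ee] using hm))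
      have h10 := hz (Sum.inr (s, 4 * n - 1)) (by rw [a2]; exact hm') (Or.inl (by rw [a2]; exact hm''))
      rw [a3, a4, h10] at h9
      simp only [ee, add_zero] at h9
      refine ⟨by omega, fun h11 => ?_⟩
      rw [a2, Prod.mk.injEq] at h11
      omega
  -- west side of `C`
  have colw : ∀ t, 0 ≤ t → t < 4 * n →
      u (x - K3 * n, t) ≤ u (x - K3 * n, t + 1) ∧
      (tlv (Sum.inl (x - K3 * n - 1, t)) = (x - K3 * n - 1, t) →
        u (x - K3 * n, t + 1) = u (x - K3 * n, t) + cnt g ξ N (Sum.inl (x - K3 * n - 1, t))) := by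
    intro t h1 h2
    have hm : (x - K3 * n - 1, t) ∈ Aq K3 K x n := by
      rw [memA]; dsimp only; omega
    have hm' : (x - K3 * n, t) ∉ Aq K3 K x n := by
      rw [memA]; dsimp only; omega
    have hm'' : (x - K3 * n, t) ∈ Cq K3 x n := by
      rw [memC]; dsimp only; omega
    have hnn' := hnn (Sum.inl (x - K3 * n - 1, t))
    have ee : x - K3 * n - 1 + 1 = x - K3 * n := by ring
    rcases sq_inl (x - K3 * n - 1, t) with ⟨a1, a2, -, a3, a4⟩ | ⟨a1, a2, -, a3, a4⟩
    · have h9 := hu' (Sum.inl (x - K3 * n - 1, t)) (Or.inl (by rw [a1]; exact hm))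
      have h10 := hz (Sum.inl (x - K3 * n - 1, t)) (by rw [a2]; simpa [ee] using hm')
        (Or.inl (by rw [a2]; simpa [ee] using hm''))
      rw [a3, a4, h10] at h9
      simp only [ee, add_zero] at h9
      refine ⟨by omega, fun h11 => ?_⟩
      rw [a2, Prod.mk.injEq] at h11
      dsimp only at h11
      omega
    · have h9 := hu' (Sum.inl (x - K3 * n - 1, t)) (Or.inr (by rw [a2]; exact hm))
      rw [a3, a4] at h9
      simp only [ee] at h9
      exact ⟨by omega, fun _ => h9⟩
  -- east side of `C`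
  have cole : ∀ t, 0 ≤ t → t < 4 * n →
      u (x + K3 * n + 1, t + 1) ≤ u (x + K3 * n + 1, t) ∧
      (tlv (Sum.inl (x + K3 * n, t)) = (x + K3 * n + 1, t) →
        u (x + K3 * n + 1, t) = u (x + K3 * n + 1, t + 1) + cnt g ξ N (Sum.inl (x + K3 * n, t))) := by
    intro t h1 h2
    have hm : (x + K3 * n + 1, t) ∈ Aq K3 K x n := by
      rw [memA]; dsimp only; omega
    have hm' : (x + K3 * n, t) ∉ Aq K3 K x n := by
      rw [memA]; dsimp only; omega
    have hm'' : (x + K3 * n, t) ∈ Cq K3 x n := by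
      rw [memC]; dsimp only; omega
    have hnn' := hnn (Sum.inl (x + K3 * n, t))
    rcases sq_inl (x + K3 * n, t) with ⟨a1, a2, -, a3, a4⟩ | ⟨a1, a2, -, a3, a4⟩
    · have h9 := hu' (Sum.inl (x + K3 * n, t)) (Or.inr (by rw [a2]; exact hm))
      rw [a3, a4] at h9
      dsimp only at h9
      exact ⟨by omega, fun _ => h9⟩
    · have h9 := hu' (Sum.inl (x + K3 * n, t)) (Or.inl (by rw [a1]; exact hm))
      have h10 := hz (Sum.inl (x + K3 * n, t)) (by rw [a2]; exact hm')
        (Or.inl (by rw [a2]; exact hm''))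
      rw [a3, a4, h10] at h9
      simp only [add_zero] at h9
      refine ⟨by omega, fun h11 => ?_⟩
      rw [a2, Prod.mk.injEq] at h11
      omega
  -- the gate is not passed
  have hce : cnt g ξ N e = 0 := by
    by_contra hne
    obtain ⟨k, hk, hkb⟩ := cnt_pos hne
    exact he k hk hkb
  have hee := hu' e (Or.inr (by rw [e2, memA]; dsimp only; omega))
  rw [hce, add_zero] at hee
  rw [e3] at f1
  rw [e4] at f2
  rw [e3, e4] at hee
  have ep : p = (p.1, 0) := by rw [← hp2]
  have eq' : p' = (p'.1, 0) := by rw [← hq2]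
  rw [ep] at f1
  rw [eq'] at f2
  -- the six segments
  have W1 := row_mono (u := u) (t := 0) (a := p'.1) (b := x - K3 * n) (by omega)
    fun s h1 h2 => (rowb s h1 (by omega) (Or.inl h2)).1
  have W2 := col_mono (u := u) (t := x - K3 * n) (a := 0) (b := 4 * n) (by omega)
    fun s h1 h2 => (colw s h1 h2).1
  have W3 := row_mono (u := u) (t := 4 * n) (a := x - K3 * n) (b := y) (by omega)
    fun s h1 h2 => (rowt s h1 (by omega)).1
  have E1 := row_mono (u := u) (t := 4 * n) (a := y + 1) (b := x + K3 * n + 1) (by omega)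
    fun s h1 h2 => (rowt s (by omega) (by omega)).1
  have E2 := col_mono (u := fun v => -u v) (t := x + K3 * n + 1) (a := 0) (b := 4 * n) (by omega)
    fun s h1 h2 => neg_le_neg (cole s h1 h2).1
  have E3 := row_mono (u := u) (t := 0) (a := x + K3 * n + 1) (b := p.1) (by omega)
    fun s h1 h2 => (rowb s (by omega) h2 (Or.inr (by omega))).1
  have E2' : u (x + K3 * n + 1, 4 * n) ≤ u (x + K3 * n + 1, 0) := neg_le_neg_iff.1 E2
  -- the exit
  have hc : 1 ≤ cnt g ξ N (st g ξ N) := one_le_cnt le_rfl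
  have htl : tlv (st g ξ N) ∈ Aq K3 K x n := by
    rw [show N = N - 1 + 1 by omega, Bs.tlv_st]
    exact hin _ (by omega)
  rcases hinner with hC | ⟨s, h1, h2, h3⟩
  · rw [memC] at hC
    rw [memA] at htl
    rcases hb : st g ξ N with ⟨a, b⟩ | ⟨a, b⟩
    · rw [hb] at hC htl hc
      rcases sq_inl (a, b) with ⟨a1, a2, -⟩ | ⟨a1, a2, -⟩
      · -- east side
        rw [a1] at hC
        rw [a2] at htl
        dsimp only at hC htl
        have ha : a = x + K3 * n := by
          by_contra hne
          exact htl.2 ⟨⟨by omega, by omega⟩, by omega, by omega⟩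
        subst ha
        have h4 := (cole b (by omega) (by omega)).2 a2
        have h5 := col_strict (u := fun v => -u v) (t := x + K3 * n + 1) (a := 0) (b := 4 * n)
          (s0 := b) (by omega) (by omega) (fun s h1 h2 => neg_le_neg (cole s h1 h2).1)
          (by omega)
        omega
      · -- west side
        rw [a1] at hC
        rw [a2] at htl
        dsimp only at hC htl
        have ha : a = x - K3 * n - 1 := by
          by_contra hne
          exact htl.2 ⟨⟨by omega, by omega⟩, by omega, by omega⟩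
        subst ha
        have h4 := (colw b (by omega) (by omega)).2 a2
        have h5 := col_strict (u := u) (t := x - K3 * n) (a := 0) (b := 4 * n)
          (s0 := b) (by omega) (by omega) (fun s h1 h2 => (colw s h1 h2).1) (by omega)
        omega
    · rw [hb] at hC htl hc
      rcases sq_inr (a, b) with ⟨a1, a2, -⟩ | ⟨a1, a2, -⟩
      · -- top side
        rw [a1] at hC
        rw [a2] at htl
        dsimp only at hC htl
        have hb' : b = 4 * n - 1 := by
          by_contra hne
          exact htl.2 ⟨⟨by omega, by omega⟩, by omega, by omega⟩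
        subst hb'
        have h4 := (rowt a (by omega) (by omega)).2 (by rw [a2]; simp)
        have hay : a ≠ y := fun h => he N le_rfl (by rw [hb, h, he0])
        rcases lt_or_gt_of_ne hay with h | h
        · have h5 := row_strict (u := u) (t := 4 * n) (a := x - K3 * n) (b := y) (s0 := a)
            (by omega) (by omega) (fun s h1 h2 => (rowt s h1 (by omega)).1) (by omega)
          omega
        · have h5 := row_strict (u := u) (t := 4 * n) (a := y + 1) (b := x + K3 * n + 1) (s0 := a)
            (by omega) (by omega) (fun s h1 h2 => (rowt s (by omega) (by omega)).1) (by omega)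
          omega
      · -- from below: impossible
        rw [a1] at hC
        rw [a2] at htl
        dsimp only at hC htl
        exact htl.2 ⟨⟨by omega, by omega⟩, by omega, by omega⟩
  · rw [h3] at htl hc hN
    rcases sq_inr (s, (-1 : ℤ)) with ⟨a1, a2, -⟩ | ⟨a1, a2, -⟩
    · rw [a2, memA] at htl
      dsimp only at htl
      have h4 : s < x - K3 * n ∨ x + K3 * n < s := by
        by_contra hne
        exact htl.2 ⟨⟨by omega, by omega⟩, by omega, by omega⟩
      have h5 := (rowb s h1 h2 h4).2 (by rw [a2]; simp)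
      rcases h4 with h4 | h4
      · have h6 := row_strict (u := u) (t := 0) (a := p'.1) (b := x - K3 * n) (s0 := s)
          (by omega) (by omega) (fun s h1 h2 => (rowb s h1 (by omega) (Or.inl h2)).1) (by omega)
        omega
      · have h6 := row_strict (u := u) (t := 0) (a := x + K3 * n + 1) (b := p.1) (s0 := s)
          (by omega) (by omega) (fun s h1 h2 => (rowb s (by omega) h2 (Or.inr (by omega))).1)
          (by omega)
        omega
    · rw [a2, memA] at htl
      dsimp only at htl
      omega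

/-! ### reflections at the closed row -/

/-- a strand which comes up through the bottom row at `y` has gone down at `y - 1` -/
theorem reflect {ξ : Cfg} {g : Ed} {y : ℤ} (hc : ξ (y, -1) = false) (hy : Even y)
    (h : nx ξ g = Sum.inr (y, -1)) (hg : hdv g = (y, -1)) : g = Sum.inl (y - 1, -1) := by
  have hodd : ¬ Even (y + -1) := by
    rw [Int.even_iff] at hy ⊢
    omega
  rcases FK.eq_of_hdv hg with h1 | h1
  · rw [h1, FK.ia]
    simp [hodd]
  · exfalso
    rw [h1, FK.ib] at h
    simp only [hodd, if_false] at h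
    simp only [nx, hodd, if_false, hc, Bool.false_eq_true, Sum.inr.injEq, Prod.mk.injEq] at h
    omega

theorem reflect' {ξ : Cfg} {g : Ed} {y : ℤ} (hc : ξ (y - 1, -1) = false) (hy : Even y)
    (h : nx ξ g = Sum.inl (y - 1, -1)) (hg : hdv g = (y - 1, -1)) : g = Sum.inr (y - 1, -1) := by
  have hev : Even (y - 1 + -1) := by
    rw [Int.even_iff] at hy ⊢
    omega
  have hodd : ¬ Even (y - 1 + (-1 - 1)) := by
    rw [Int.even_iff] at hy ⊢
    omega
  rcases FK.eq_of_hdv hg with h1 | h1
  · exfalso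
    rw [h1, FK.ia] at h
    simp only [hev, if_true] at h
    simp only [nx, hodd, if_false] at h
    have e1 : (-1 - 1 + 1 : ℤ) = -1 := by norm_num
    simp only [e1, hc, Bool.false_eq_true, if_false, Sum.inl.injEq, Prod.mk.injEq] at h
    omega
  · rw [h1, FK.ib]
    simp [hev]

/-- the edges through which the inner part is left backwards -/
def Gin (K3 K x n : ℤ) (p p' : ℤ × ℤ) (e g : Ed) : Prop :=
  (hdv g ∈ Cq K3 x n ∧ tlv g ∈ Aq K3 K x n ∧ g ≠ e) ∨
    ∃ y, p'.1 ≤ y ∧ y < p.1 ∧ g = Sum.inr (y, -1)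

/-- **ONE** -/
theorem one_gt {K3 K x n : ℤ} {ξ : Cfg} {e : Ed} (hn : 1 ≤ n) (h8 : 8 ≤ K3) (hK : K3 + 8 ≤ K)
    (hG : Gt K3 K x n ξ e)
    (hrow : ∀ y, x - K * n - 1 ≤ y → y ≤ x + K * n + 1 → ξ (y, -1) = false) :
    (∀ f m, tlv f ∉ Wr x (K * n) → hdv (st f ξ m) ∈ Cq K3 x n →
      (∀ i < m, hdv (st f ξ i) ∈ Wr x (K * n) ∧ hdv (st f ξ i) ∉ Cq K3 x n) → st f ξ m = e) ∧
    One (Wr x (K * n)) ↑(Cq K3 x n) ξ := by
  classical
  have hA3 : 8 * n ≤ K3 * n := by nlinarith
  have hAK : K3 * n + 8 * n ≤ K * n := by nlinarith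
  obtain ⟨⟨p, hp2, -, hp1, hp3, hp⟩, ⟨p', hq2, -, hq1, hq3, hq⟩⟩ := gt_feet hn hG
  obtain ⟨y0, hy0, he0, e1, e2, e3, e4⟩ := gt_hdv hG
  have hy0' := abs_le.1 hy0
  have hqo : Odd p'.1 := by
    have h0 := H318.odd_rs e
    have key : Odd (p'.1 + p'.2) := by
      obtain ⟨-, hh⟩ := hq
      clear hq1 hq2 hq3
      induction hh with
      | refl => exact h0
      | tail _ hab ih => exact H318.odd_step hab.1 ih
    rwa [hq2, add_zero] at key
  have memA : ∀ v : ℤ × ℤ, v ∈ Aq K3 K x n ↔
      ((x - K * n ≤ v.1 ∧ v.1 ≤ x + K * n) ∧ 0 ≤ v.2 ∧ v.2 ≤ K * n) ∧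
      ¬ ((x - K3 * n ≤ v.1 ∧ v.1 ≤ x + K3 * n) ∧ 0 ≤ v.2 ∧ v.2 ≤ 4 * n - 1) := fun v => mem_Aq
  have memC : ∀ v : ℤ × ℤ, v ∈ Cq K3 x n ↔
      (x - K3 * n ≤ v.1 ∧ v.1 ≤ x + K3 * n) ∧ 0 ≤ v.2 ∧ v.2 ≤ 4 * n - 1 := fun v => mem_Rc
  have memW : ∀ v : ℤ × ℤ, v ∈ Wr x (K * n) ↔
      x - K * n ≤ v.1 ∧ v.1 ≤ x + K * n ∧ -1 ≤ v.2 ∧ v.2 ≤ K * n := fun v => Iff.rfl
  have AW : ∀ v ∈ Aq K3 K x n, v ∈ Wr x (K * n) := by
    intro v hv
    rw [memA] at hv
    rw [memW]
    omega
  have CW : ∀ v ∈ Cq K3 x n, v ∈ Wr x (K * n) := by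
    intro v hv
    rw [memC] at hv
    rw [memW]
    omega
  have first : ∀ f m, tlv f ∉ Wr x (K * n) → hdv (st f ξ m) ∈ Cq K3 x n →
      (∀ i < m, hdv (st f ξ i) ∈ Wr x (K * n) ∧ hdv (st f ξ i) ∉ Cq K3 x n) → st f ξ m = e := by
    intro f m hf hm hW
    -- tails
    have tl : ∀ j, j ≤ m → tlv (st f ξ j) ∉ Cq K3 x n := by
      intro j hj hc
      rcases Nat.eq_zero_or_pos j with h | h
      · subst h
        exact hf (CW _ hc)
      · rw [show j = j - 1 + 1 by omega, Bs.tlv_st] at hc
        exact (hW (j - 1) (by omega)).2 hc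
    have desc : ∀ j, j ≤ m → ¬ Gin K3 K x n p p' e (st f ξ j) := by
      intro j
      induction j using Nat.strong_induction_on with
      | _ j ih =>
        intro hjm hj
        by_cases hT : tlv (st f ξ j) ∈ Aq K3 K x n
        · have hj1 : 1 ≤ j := by
            by_contra hc
            rw [show j = 0 by omega, Bs.st_zero] at hT
            exact hf (AW _ hT)
          have hT' : hdv (st f ξ (j - 1)) ∈ Aq K3 K x n := by
            rw [show j = j - 1 + 1 by omega, Bs.tlv_st] at hT
            exact hT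
          obtain ⟨a, b, ha, hb, ha1, hab, hb1⟩ := window (fun h => hf (AW _ h)) hT'
          have hout : hdv (st f ξ j) ∉ Aq K3 K x n := by
            rcases hj with ⟨h1, -, -⟩ | ⟨y, h1, h2, h3⟩
            · rw [memC] at h1
              rw [memA]
              intro hc
              exact hc.2 h1
            · rw [h3] at hT ⊢
              rcases sq_inr (y, (-1 : ℤ)) with ⟨a1, a2, -⟩ | ⟨a1, a2, -⟩
              · rw [a1, memA]
                dsimp only
                omega
              · rw [a2, memA] at hT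
                dsimp only at hT
                omega
          have hbj : b = j := by
            by_contra hne
            rcases lt_or_gt_of_ne hne with h | h
            · omega
            · exact hout (hab j (by omega) h)
          subst hbj
          have hst : ∀ k, st (st f ξ a) ξ k = st f ξ (a + k) := fun k => (Bs.st_add a k).symm
          have hres := inner (g := st f ξ a) (N := b - a) hn h8 hK hG hp2 hp1 hp3 hp hq2 hq1 hq3 hq
            (by omega) ha1 (fun k hk => by rw [hst]; exact hab _ (by omega) (by omega))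
            (by rw [hst, Nat.add_sub_cancel' (by omega)]; exact hb1)
            (fun k hk => by
              rw [hst]
              intro hke
              rcases Nat.lt_or_ge (a + k) b with h | h
              · have := (hW (a + k) (by omega)).2
                rw [hke, e1, memC] at this
                exact this ⟨by dsimp only; omega, by dsimp only; omega, by dsimp only; omega⟩
              · rw [show a + k = b by omega] at hke
                rcases hj with ⟨-, -, h3⟩ | ⟨y, -, -, h3⟩
                · exact h3 hke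
                · rw [hke, he0, Sum.inr.injEq, Prod.mk.injEq] at h3
                  omega)
            (by
              rw [hst, Nat.add_sub_cancel' (by omega)]
              rcases hj with ⟨h1, -, -⟩ | h1
              · exact Or.inl h1
              · exact Or.inr h1)
          rcases hres with h | h
          · exact tl a (by omega) h
          · exact ih a (by omega) (by omega) (Or.inr h)
        · rcases hj with ⟨-, h, -⟩ | ⟨y, h1, h2, h3⟩
          · exact hT h
          rw [h3] at hT
          have hTC := tl j hjm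
          rw [h3] at hTC
          rcases sq_inr (y, (-1 : ℤ)) with ⟨a1, a2, -⟩ | ⟨a1, a2, -⟩
          · rw [a2, memA] at hT
            rw [a2, memC] at hTC
            dsimp only at hT hTC
            refine hT ⟨by omega, fun hc => hTC hc⟩
          · have hye : Even y := by
              by_contra hno
              have : Even (y + -1) := by
                rw [Int.even_iff] at hno ⊢
                omega
              have h4 : hdv (Sum.inr (y, (-1 : ℤ)) : Ed) = (y, -1) := by simp [hdv, this]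
              rw [a1, Prod.mk.injEq] at h4
              omega
            have hy1 : p'.1 + 1 ≤ y := by
              rcases lt_or_eq_of_le h1 with h | h
              · omega
              · rw [← h] at hye
                exact absurd hye (by rw [Int.not_even_iff_odd]; exact hqo)
            have hj1 : 1 ≤ j := by
              by_contra hc
              rw [show j = 0 by omega, Bs.st_zero] at h3
              apply hf
              rw [h3, a2, memW]
              dsimp only
              omega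
            obtain ⟨i, rfl⟩ : ∃ i, j = i + 1 := ⟨j - 1, by omega⟩
            have hd1 : hdv (st f ξ i) = (y, -1) := by rw [← Bs.tlv_st, h3, a2]
            have hg1 : st f ξ i = Sum.inl (y - 1, -1) :=
              reflect (hrow y (by omega) (by omega)) hye (by rw [← Bs.st_succ, h3]) hd1
            have hev : Even (y - 1 + -1) := by
              rw [Int.even_iff] at hye ⊢
              omega
            have ht1 : tlv (Sum.inl (y - 1, -1) : Ed) = (y - 1, -1) := by simp [tlv, hev]
            have hi1 : 1 ≤ i := by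
              by_contra hc
              rw [show i = 0 by omega, Bs.st_zero] at hg1
              apply hf
              rw [hg1, ht1, memW]
              dsimp only
              omega
            obtain ⟨k, rfl⟩ : ∃ k, i = k + 1 := ⟨i - 1, by omega⟩
            have hd2 : hdv (st f ξ k) = (y - 1, -1) := by rw [← Bs.tlv_st, hg1, ht1]
            have hg2 : st f ξ k = Sum.inr (y - 1, -1) :=
              reflect' (hrow (y - 1) (by omega) (by omega)) hye (by rw [← Bs.st_succ, hg1]) hd2
            exact ih k (by omega) (by omega) (Or.inr ⟨y - 1, by omega, by omega, hg2⟩)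
    by_contra hne
    refine desc m le_rfl ?_
    -- the tail of the last edge
    have hm0 : tlv (st f ξ m) ∈ Wr x (K * n) := by
      rcases Nat.eq_zero_or_pos m with h | h
      · exfalso
        subst h
        rw [Bs.st_zero] at hm
        apply hf
        rw [memW]
        rw [memC] at hm
        rcases f with ⟨a, b⟩ | ⟨a, b⟩
        · rcases sq_inl (a, b) with ⟨a1, a2, -⟩ | ⟨a1, a2, -⟩ <;> rw [a1] at hm <;> rw [a2] <;>
            dsimp only at hm ⊢ <;> omega
        · rcases sq_inr (a, b) with ⟨a1, a2, -⟩ | ⟨a1, a2, -⟩ <;> rw [a1] at hm <;> rw [a2] <;>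
            dsimp only at hm ⊢ <;> omega
      · rw [show m = m - 1 + 1 by omega, Bs.tlv_st]
        exact (hW (m - 1) (by omega)).1
    by_cases h2 : 0 ≤ (tlv (st f ξ m)).2
    · left
      refine ⟨hm, ?_, hne⟩
      rw [memA]
      rw [memW] at hm0
      have := tl m le_rfl
      rw [memC] at this
      exact ⟨by omega, this⟩
    · right
      rw [memW] at hm0
      rw [memC] at hm
      rcases hfm : st f ξ m with ⟨a, b⟩ | ⟨a, b⟩
      · exfalso
        rw [hfm] at hm hm0 h2
        rcases sq_inl (a, b) with ⟨a1, a2, -⟩ | ⟨a1, a2, -⟩ <;> rw [a1] at hm <;>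
          rw [a2] at hm0 h2 <;> dsimp only at hm hm0 h2 <;> omega
      · rw [hfm] at hm hm0 h2
        rcases sq_inr (a, b) with ⟨a1, a2, -⟩ | ⟨a1, a2, -⟩
        · exfalso
          rw [a1] at hm
          rw [a2] at hm0 h2
          dsimp only at hm hm0 h2
          omega
        · rw [a1] at hm
          rw [a2] at hm0 h2
          dsimp only at hm hm0 h2
          have hb : b = -1 := by omega
          subst hb
          exact ⟨a, by omega, by omega, rfl⟩
  refine ⟨first, ?_⟩
  rintro f f' ⟨hf, m, hm, hW⟩ ⟨hf', m', hm', hW'⟩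
  have h1 := first f m hf (by exact_mod_cast hm) fun i hi => ⟨(hW i hi).1, by exact_mod_cast (hW i hi).2⟩
  have h2 := first f' m' hf' (by exact_mod_cast hm') fun i hi =>
    ⟨(hW' i hi).1, by exact_mod_cast (hW' i hi).2⟩
  -- injectivity
  have key : ∀ (f f' : Ed) (m m' : ℕ), m ≤ m' → st f ξ m = st f' ξ m' → tlv f ∉ Wr x (K * n) →
      (∀ i < m', hdv (st f' ξ i) ∈ Wr x (K * n)) → f = f' := by
    intro f f' m m' hmm h hf hW'
    obtain ⟨d, rfl⟩ : ∃ d, m' = d + m := ⟨m' - m, by omega⟩
    have h3 : f = st f' ξ d := by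
      apply ((Vale.Agent.P167.s_nx ξ).1.iterate m)
      rw [Bs.st_add] at h
      exact h
    rcases Nat.eq_zero_or_pos d with h4 | h4
    · rw [h4, Bs.st_zero] at h3
      exact h3
    · exfalso
      apply hf
      rw [h3, show d = d - 1 + 1 by omega, Bs.tlv_st]
      exact hW' _ (by omega)
  rcases le_total m m' with h | h
  · exact key f f' m m' h (h1.trans h2.symm) hf fun i hi => (hW' i hi).1
  · exact (key f' f m' m h (h2.trans h1.symm) hf' fun i hi => (hW i hi).1).symm

end Vale.Agent.P167.H318.UQ
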