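import Vale.Agent.P167.H318.Q.Uni
import Vale.Agent.P167.H318.MK
import Vale.Agent.P167.H685.Q.ADefs

/-!
# P167, general `q`, block Q-NSYM: the strand on the success event (law free)
-/

namespace Vale.Agent.P167.H318.UQ

open Finset Vale.Agent.P167 Vale.Agent.P167.FK Vale.Agent.P167.FKA Vale.Agent.P167.H318 Relation
open Vale.Agent.P145.FB (PStep PConn)
open Vale.Agent.P167.H685.Q (EQ PQ Gq TC win hbF mem_hbF Wr One Ent RC PastS Pat pat pc)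
open Vale.Agent.P167.H632 (Ex sq_inl sq_inr ex_rect)
open Vale.Agent.P167.H318 (st ex hit cnt)

/-! ### locality -/

theorem Oc.congr {A : Finset (ℤ × ℤ)} {ξ ξ' : Cfg} {s t : ℤ × ℤ} (h : ∀ v ∈ A, ξ' v = ξ v)
    (ho : Oc A ξ s t) : Oc A ξ' s t := by
  obtain ⟨h1, h2⟩ := ho
  refine ⟨h1, ReflTransGen.mono (fun a b hab => ⟨⟨hab.1.1, hab.1.2.1, ?_, hab.1.2.2.2⟩, hab.2⟩) _ _ h2⟩
  have h3 := hab.1.2.2
  show ξ' _ = true
  rw [h _ h3.2]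
  exact h3.1

theorem Dc.congr {A : Finset (ℤ × ℤ)} {ξ ξ' : Cfg} {s t : ℤ × ℤ} (h : ∀ v ∈ A, ξ' v = ξ v)
    (ho : Dc A ξ s t) : Dc A ξ' s t := by
  obtain ⟨h1, h2⟩ := ho
  refine ⟨h1, ReflTransGen.mono (fun a b hab => ⟨⟨hab.1.1, hab.1.2.1, ?_, hab.1.2.2.2⟩, hab.2⟩) _ _ h2⟩
  have h3 := hab.1.2.2
  show ¬ ξ' _ = true
  rw [h _ h3.2]
  exact h3.1

theorem Oc.mono {A B : Finset (ℤ × ℤ)} {ξ : Cfg} {s t : ℤ × ℤ} (h : ∀ v ∈ A, v ∈ B)
    (ho : Oc A ξ s t) : Oc B ξ s t := by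
  obtain ⟨h1, h2⟩ := ho
  exact ⟨h1, ReflTransGen.mono (fun a b hab => ⟨⟨hab.1.1, hab.1.2.1, hab.1.2.2.1, h _ hab.1.2.2.2⟩, hab.2⟩) _ _ h2⟩

theorem Dc.mono {A B : Finset (ℤ × ℤ)} {ξ : Cfg} {s t : ℤ × ℤ} (h : ∀ v ∈ A, v ∈ B)
    (ho : Dc A ξ s t) : Dc B ξ s t := by
  obtain ⟨h1, h2⟩ := ho
  exact ⟨h1, ReflTransGen.mono (fun a b hab => ⟨⟨hab.1.1, hab.1.2.1, hab.1.2.2.1, h _ hab.1.2.2.2⟩, hab.2⟩) _ _ h2⟩

variable {K3 K x n l' : ℤ} {e : Ed} {ξ ξ' : Cfg}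

theorem Gt.congr (h : ∀ v ∈ Aq K3 K x n, ξ' v = ξ v) (hG : Gt K3 K x n ξ e) :
    Gt K3 K x n ξ' e := by
  obtain ⟨h1, ⟨p, p1, p2, p3⟩, ⟨q, q1, q2, q3⟩⟩ := hG
  exact ⟨h1, ⟨p, p1, p2, p3.congr h⟩, ⟨q, q1, q2, q3.congr h⟩⟩

/-- the path of `e` in `I` is determined by the squares of `I` -/
theorem st_loc {I : Finset (ℤ × ℤ)} {A : Set (ℤ × ℤ)} (h : ∀ v ∈ I, ξ' v = ξ v) :
    hit I e A ξ' = hit I e A ξ ∧ ∀ i ≤ hit I e A ξ, st e ξ' i = st e ξ i := by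
  have key : ∀ ξ ξ' : Cfg, (∀ v ∈ I, ξ' v = ξ v) → ∀ N,
      (∀ i < N, ¬ (hdv (st e ξ i) ∈ A ∨ hdv (st e ξ i) ∉ I)) →
      ∀ i ≤ N, st e ξ' i = st e ξ i := by
    intro ξ ξ' h N hN
    refine Bs.st_congr fun i hi => h _ ?_
    by_contra hc
    exact hN i hi (Or.inr hc)
  have hset : {m | hdv (st e ξ' m) ∈ A ∨ hdv (st e ξ' m) ∉ I}.Nonempty ↔
      {m | hdv (st e ξ m) ∈ A ∨ hdv (st e ξ m) ∉ I}.Nonempty := by
    have key2 : ∀ ξ ξ' : Cfg, (∀ v ∈ I, ξ' v = ξ v) →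
        {m | hdv (st e ξ m) ∈ A ∨ hdv (st e ξ m) ∉ I}.Nonempty →
        {m | hdv (st e ξ' m) ∈ A ∨ hdv (st e ξ' m) ∉ I}.Nonempty := by
      classical
      intro ξ ξ' h hne
      refine ⟨Nat.find hne, ?_⟩
      have h1 := key ξ ξ' h (Nat.find hne) (fun i hi => Nat.find_min hne hi) _ le_rfl
      show hdv (st e ξ' _) ∈ A ∨ _
      rw [h1]
      exact Nat.find_spec hne
    exact ⟨key2 ξ' ξ fun v hv => (h v hv).symm, key2 ξ ξ' h⟩
  by_cases hne : {m | hdv (st e ξ m) ∈ A ∨ hdv (st e ξ m) ∉ I}.Nonempty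
  · have h1 : ∀ i ≤ hit I e A ξ, st e ξ' i = st e ξ i :=
      key ξ ξ' h _ fun i hi => Nat.notMem_of_lt_sInf hi
    refine ⟨Bs.hit_eq_of ?_ ?_, h1⟩
    · rw [h1 _ le_rfl]
      exact Nat.sInf_mem hne
    · intro i hi
      rw [h1 i hi.le]
      have := Nat.notMem_of_lt_sInf hi
      simp only [Set.mem_ofPred_eq, not_or, not_not] at this
      exact this
  · have hne' : ¬ {m | hdv (st e ξ' m) ∈ A ∨ hdv (st e ξ' m) ∉ I}.Nonempty := fun h => hne (hset.1 h)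
    have e1 : hit I e A ξ = 0 := by
      unfold hit
      rw [Set.not_nonempty_iff_eq_empty.1 hne, Nat.sInf_empty]
    have e2 : hit I e A ξ' = 0 := by
      unfold hit
      rw [Set.not_nonempty_iff_eq_empty.1 hne', Nat.sInf_empty]
    rw [e1, e2]
    refine ⟨rfl, fun i hi => ?_⟩
    rw [Nat.le_zero.1 hi]
    rfl

theorem ex_loc {I : Finset (ℤ × ℤ)} (h : ∀ v ∈ I, ξ' v = ξ v) :
    ex I e ξ' = ex I e ξ ∧ ∀ i ≤ ex I e ξ, st e ξ' i = st e ξ i := st_loc h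

theorem J_loc {I : Finset (ℤ × ℤ)} {ψ : ℤ → ℝ} {k : ℕ} (h : ∀ v ∈ I, ξ' v = ξ v) :
    J I e ψ k ξ' = J I e ψ k ξ := by
  obtain ⟨h1, h2⟩ := ex_loc (e := e) h
  unfold J
  rw [h1]
  refine Finset.sum_congr rfl fun i hi => ?_
  rw [h2 i (Finset.mem_range.1 hi).le]

theorem Ctr.congr (h : ∀ v ∈ hbF x (K * n), ξ' v = ξ v) (hC : Ctr K3 K x n l' ξ e) :
    Ctr K3 K x n l' ξ' e := by
  obtain ⟨h1, h2⟩ := ex_loc (e := e) h
  obtain ⟨h3, h4⟩ := st_loc (e := e) (A := Lo x (K * n) (4 * l')) h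
  unfold Ctr at hC ⊢
  rw [h1, h3, h4 _ le_rfl]
  exact hC

/-- if the hitting time is smaller than the exit time, the head is in the set -/
theorem hit_mem' {I : Finset (ℤ × ℤ)} {A : Set (ℤ × ℤ)} (h : hit I e A ξ < ex I e ξ) :
    hdv (st e ξ (hit I e A ξ)) ∈ A ∧ ∀ j ≤ hit I e A ξ, hdv (st e ξ j) ∈ I := by
  have hne : {m | hdv (st e ξ m) ∈ (∅ : Set (ℤ × ℤ)) ∨ hdv (st e ξ m) ∉ I}.Nonempty := by
    by_contra hc
    have : ex I e ξ = 0 := by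
      unfold ex hit
      rw [Set.not_nonempty_iff_eq_empty.1 hc, Nat.sInf_empty]
    omega
  have hI : ∀ j ≤ hit I e A ξ, hdv (st e ξ j) ∈ I := by
    intro j hj
    by_contra hc
    have : ex I e ξ ≤ j := Nat.sInf_le (Or.inr hc)
    omega
  obtain ⟨m, hm⟩ := hne
  have hm' : hdv (st e ξ m) ∉ I := hm.resolve_left fun h => h
  have h2 : hdv (st e ξ (hit I e A ξ)) ∈ A ∨ hdv (st e ξ (hit I e A ξ)) ∉ I :=
    Nat.sInf_mem (s := {m | hdv (st e ξ m) ∈ A ∨ hdv (st e ξ m) ∉ I}) ⟨m, Or.inr hm'⟩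
  exact ⟨h2.resolve_right fun h => h (hI _ le_rfl), hI⟩

/-! ### the success event -/

/-- geometric data -/
structure Sg (K3 K x n l' l ρ : ℤ) (S : St) : Prop where
  hn : 1 ≤ n
  h8 : 8 ≤ K3
  hK : K3 + 8 ≤ K
  hl : K * n ≤ l
  hρ : 20 * l ≤ ρ
  hl' : 4 * l' ≤ n
  hT : TC S l x ρ

theorem Sg.num {l ρ : ℤ} {S : St} (h : Sg K3 K x n l' l ρ S) :
    8 * n ≤ K3 * n ∧ K3 * n + 8 * n ≤ K * n := by
  obtain ⟨h1, h2, h3, -, -, -, -⟩ := h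
  constructor <;> nlinarith

/-- the full configurations of the state -/
def Full (S : St) (ω : Cfg) : Prop := ∀ v, v ∉ S.F → ω v = S.z v

theorem Full.cf {S : St} {ω : Cfg} (h : Full S ω) : S.cf ω = ω := by
  funext v
  by_cases hv : v ∈ S.F
  · exact H192.ov_mem hv
  · rw [h v hv]
    exact H192.ov_notMem hv

/-- **the strand passes the gate** -/
theorem suc1 {l ρ : ℤ} {S : St} {ω : Cfg} (h : Sg K3 K x n l' l ρ S) (hω : Full S ω)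
    (hG : Gt K3 K x n ω e) (hL : ω ∈ Lnk K3 S x n ρ e) :
    ∃ i, S.m ≤ i ∧ i ≤ hit S.D S.e0 (Lo x ρ n) ω ∧ i < ex S.D S.e0 ω ∧ st S.e0 ω i = e := by
  obtain ⟨n1, n2⟩ := h.num
  obtain ⟨h1, h2, h3, h4, h5, h6, hT⟩ := h
  obtain ⟨y, hy, he0, e1, e2, e3, e4⟩ := gt_hdv hG
  have hy' := abs_le.1 hy
  have hreg : ∀ s ∈ Uh x ρ n, ∀ s' ∈ Uh x ρ n, ∀ v, PStep {v} s s' →
      v ∈ S.D ∧ v ∉ Lo x ρ n := by
    rintro s ⟨a1, a2, a3, a4⟩ s' ⟨b1, b2, b3, b4⟩ v ⟨c1, c2, c3⟩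
    rw [Set.mem_singleton_iff] at c3
    subst c3
    refine ⟨hT.flat'.mem _ ⟨?_, ?_, ?_, ?_⟩, fun hc => ?_⟩
    · dsimp only; omega
    · dsimp only; omega
    · dsimp only; omega
    · dsimp only; omega
    · obtain ⟨-, -, -, d4⟩ := hc
      dsimp only at d4
      omega
  obtain ⟨⟨i, hi, p1⟩, ⟨i', hi', p2⟩⟩ := hL
  have hcf := hω.cf
  have key := H685.Q.passes_bank (S := S) (u := x) (w := ρ) (l := l) (H := ρ + 1) (x := x) (h0 := n)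
    hT.toTB (by omega) (by omega) (by omega) (by omega) (ω := ω) (e := e)
    (by rw [e1]; exact ⟨by dsimp only; omega, by dsimp only; omega, by dsimp only; omega,
      by dsimp only; omega⟩)
    (by rw [e1]; dsimp only; omega) hreg hreg
    ⟨i, hi, by
      rw [hcf]
      exact ⟨p1.1, ReflTransGen.mono (fun a b hab => ⟨⟨hab.1.1, hab.1.2.1, hab.1.2.2.1⟩, hab.2⟩) _ _ p1.2⟩⟩
    ⟨i', hi', by
      rw [hcf]
      exact ⟨p2.1, ReflTransGen.mono (fun a b hab => ⟨⟨hab.1.1, hab.1.2.1, hab.1.2.2.1⟩, hab.2⟩) _ _ p2.2⟩⟩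
  rw [hcf] at key
  exact key

/-- **the strand lands before it leaves `I`** -/
theorem suc2 {l ρ : ℤ} {S : St} {ω : Cfg} (h : Sg K3 K x n l' l ρ S) (hG : Gt K3 K x n ω e)
    {i : ℕ} (hi : st S.e0 ω i = e) :
    ∃ y, st e ω (ex (hbF x (K * n)) e ω) = Sum.inr (y, -1) ∧ x - K * n ≤ y ∧ y ≤ x + K * n ∧
      hdv (Sum.inr (y, -1) : Ed) = (y, -1) ∧
      ∀ j < ex (hbF x (K * n)) e ω, hdv (st e ω j) ∈ hbF x (K * n) := by
  obtain ⟨n1, n2⟩ := h.num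
  obtain ⟨h1, h2, h3, h4, h5, h6, hT⟩ := h
  obtain ⟨y, hy, he0, e1, e2, e3, e4⟩ := gt_hdv hG
  have hy' := abs_le.1 hy
  obtain ⟨⟨p, p1, p2, p3, p4, p5⟩, ⟨q, q1, q2, q3, q4, q5⟩⟩ := gt_feet h1 hG
  have hsub : ∀ v ∈ Aq K3 K x n, v ∈ hbF x (K * n) := fun v hv => by
    rw [mem_Aq] at hv
    rw [mem_hbF']
    exact hv.1
  have h0 : tlv S.e0 ∉ hbF x (K * n) := by
    intro hc
    rw [mem_hbF'] at hc
    exact hT.st (hT.flat'.mem _ ⟨by omega, by omega, by omega, by omega⟩)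
  subst hi
  refine land h0 ?_ p1 p4 q1 q4 (by omega) (p5.mono hsub) (q5.mono hsub)
  rw [e1, mem_hbF']
  dsimp only
  omega

/-- **the observable** -/
theorem suc3 {l ρ : ℤ} {S : St} {ω : Cfg} (h : Sg K3 K x n l' l ρ S) (hω : Full S ω)
    (hG : Gt K3 K x n ω e) (hL : ω ∈ Lnk K3 S x n ρ e) {ψ : ℤ → ℝ} {k : ℕ} (hk : (k : ℤ) ≤ n)
    (hψ : ∀ y, ψ y ≠ 0 → x - ρ + 1 ≤ y ∧ y ≤ x + ρ) :
    J S.D S.e0 ψ k ω = J (hbF x (K * n)) e ψ k ω := by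
  obtain ⟨i, -, i2, i3, i4⟩ := suc1 h hω hG hL
  obtain ⟨y, y1, y2, y3, y4, y5⟩ := suc2 h hG i4
  have hT := h.hT
  set N := ex (hbF x (K * n)) e ω with hN
  have n2 := h.num
  have hh4 := h.hl
  have hh5 := h.hρ
  have hh1 := h.hn
  have hex : ex S.D S.e0 ω = i + N := by
    refine Bs.hit_eq_of (Or.inr ?_) fun j hj => ⟨Set.notMem_empty _, ?_⟩
    · rw [Bs.st_add, i4, y1, y4]
      exact hT.flat'.not y (by omega) (by omega)
    · rcases Nat.lt_or_ge j i with hji | hji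
      · exact Bs.ex_min (by omega)
      · obtain ⟨a, rfl⟩ : ∃ a, j = i + a := ⟨j - i, by omega⟩
        rw [Bs.st_add, i4]
        have := y5 a (by omega)
        rw [mem_hbF'] at this
        exact hT.flat'.mem _ ⟨by omega, by omega, by omega, by omega⟩
  unfold J
  rw [hex, Finset.sum_range_add]
  have hz : ∑ j ∈ Finset.range i, wt ψ k (st S.e0 ω j) = 0 := by
    refine Finset.sum_eq_zero fun j hj => ?_
    have hj' : j < hit S.D S.e0 (Lo x ρ n) ω := lt_of_lt_of_le (Finset.mem_range.1 hj) i2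
    have h7 := (Bs.hit_min hj').1
    rcases hst : st S.e0 ω j with ⟨a, b⟩ | ⟨a, b⟩
    · rw [hst] at h7
      simp only [wt]
      split_ifs with hb
      · by_cases hψa : ψ (a + 1) = 0
        · rw [hψa, zero_mul]
        · exfalso
          have h8 := hψ _ hψa
          apply h7
          rcases sq_inl (a, b) with ⟨a1, -⟩ | ⟨a1, -⟩ <;> rw [a1] <;>
            exact ⟨by dsimp only; omega, by dsimp only; omega, by dsimp only; omega,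
              by dsimp only; omega⟩
      · rfl
    · rfl
  rw [hz, zero_add]
  refine Finset.sum_congr rfl fun j _ => ?_
  rw [Bs.st_add, i4]

/-- **the entrance in the low zone** -/
theorem suc4 {l ρ : ℤ} {S : St} {ω : Cfg} (h : Sg K3 K x n l' l ρ S) (hω : Full S ω)
    (hG : Gt K3 K x n ω e) (hL : ω ∈ Lnk K3 S x n ρ e) (hC : Ctr K3 K x n l' ω e) :
    ∃ i, st S.e0 ω i = e ∧ hit S.D S.e0 (Lo x ρ (4 * l')) ω =
      i + hit (hbF x (K * n)) e (Lo x (K * n) (4 * l')) ω ∧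
      |(hdv (st S.e0 ω (hit S.D S.e0 (Lo x ρ (4 * l')) ω))).1 - x| ≤ (K3 - 1) * n := by
  obtain ⟨i, -, i2, i3, i4⟩ := suc1 h hω hG hL
  have hT := h.hT
  have n2 := h.num
  have hh4 := h.hl
  have hh5 := h.hρ
  have hh6 := h.hl'
  obtain ⟨c1, c2⟩ := hit_mem' hC.1
  set N := hit (hbF x (K * n)) e (Lo x (K * n) (4 * l')) ω with hN
  have hit' : hit S.D S.e0 (Lo x ρ (4 * l')) ω = i + N := by
    refine Bs.hit_eq_of (Or.inl ?_) fun j hj => ?_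
    · rw [Bs.st_add, i4]
      obtain ⟨d1, d2, d3, d4⟩ := c1
      exact ⟨by omega, by omega, d3, d4⟩
    · rcases Nat.lt_or_ge j i with hji | hji
      · have h7 := Bs.hit_min (lt_of_lt_of_le hji i2)
        refine ⟨fun hc => h7.1 ?_, h7.2⟩
        obtain ⟨d1, d2, d3, d4⟩ := hc
        exact ⟨d1, d2, d3, by omega⟩
      · obtain ⟨a, rfl⟩ : ∃ a, j = i + a := ⟨j - i, by omega⟩
        rw [Bs.st_add, i4]
        have h8 : a < N := by omega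
        have h9 := c2 a h8.le
        have h10 := Nat.notMem_of_lt_sInf h8
        simp only [Set.mem_ofPred_eq, not_or, not_not] at h10
        rw [mem_hbF'] at h9
        refine ⟨fun hc => h10.1 ?_, hT.flat'.mem _ ⟨by omega, by omega, by omega, by omega⟩⟩
        obtain ⟨d1, d2, d3, d4⟩ := hc
        exact ⟨by omega, by omega, d3, d4⟩
  refine ⟨i, i4, hit', ?_⟩
  rw [hit', Bs.st_add, i4]
  exact hC.2

end Vale.Agent.P167.H318.UQ
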