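import Vale.Agent.P167.H318.Q.Succ

/-!
# P167, general `q`, block Q-NSYM: the common part, densities
-/

namespace Vale.Agent.P167.H318.UQ

open Finset Vale.Agent.P167 Vale.Agent.P167.FK Vale.Agent.P167.FKA Vale.Agent.P167.H318 Relation
open Vale.Agent.P145.FB (PStep PConn)
open Vale.Agent.P167.H558 (StopSet Past)
open Vale.Agent.P167.H685.Q (EQ PQ Gq TC win hbF mem_hbF Wr One Ent RC PastS Pat pat pc pat_fst
  mem_pat_snd pat_congr good_pc cf_in dens dens_nonneg dens_le_one dens_congr dens_eq_zero ex_pat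
  ex_dens)
open Vale.Agent.P167.H318 (st ex hit cnt)

variable {K3 K x n l' K0 : ℤ} {e : Ed} {ξ ξ' ω ω' : Cfg} {g : Pat} {Q c : ℝ}

/-- reference masses -/
noncomputable def nu (Q : ℝ) (K3 K x n K0 : ℤ) (g : Pat) : ℝ :=
  FK.Pr Q (hbF x (K0 * n)) eta0 ({ω | pat (RA K3 K x n) ω = g} ∩ LkR K3 K x n g)

/-- probability of the centre, given the pattern -/
noncomputable def mc (Q : ℝ) (K3 K x n l' : ℤ) (g : Pat) : ℝ :=
  FK.Ex Q (hbF x (K * n) \ g.1) (pc g) (chi K3 K x n l' (est K3 K x n g))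

/-- mean value of the observable on the centre, given the pattern -/
noncomputable def mj (Q : ℝ) (K3 K x n l' : ℤ) (ψ : ℤ → ℝ) (k : ℕ) (g : Pat) : ℝ :=
  FK.Ex Q (hbF x (K * n) \ g.1) (pc g) fun ξ =>
    chi K3 K x n l' (est K3 K x n g) ξ * J (hbF x (K * n)) (est K3 K x n g) ψ k ξ

/-- **the reference mass** -/
theorem ref_mass (hQ : 0 < Q) (h8 : 8 ≤ K3) (hK : K3 + 8 ≤ K) (hn : 1 ≤ n) (hK0 : K ≤ K0) :
    FK.Pr Q (hbF x (K0 * n)) eta0 {ξ | ∃ e, Gt K3 K x n ξ e ∧ ArE K3 K x n ξ e ∧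
      ArW K3 K x n ξ e ∧ Ctr K3 K x n l' ξ e} ≤
    ∑ g ∈ Pa K3 K x n, nu Q K3 K x n K0 g * mc Q K3 K x n l' g := by
  classical
  have hKn : K * n ≤ K0 * n := by nlinarith
  have e1 : ∀ g ∈ Pa K3 K x n, nu Q K3 K x n K0 g * mc Q K3 K x n l' g =
      FK.Ex Q (hbF x (K0 * n)) eta0 (fun ω => {ω | pat (RA K3 K x n) ω = g}.indicator 1 ω *
        (LkR K3 K x n g).indicator 1 ω * chi K3 K x n l' (est K3 K x n g) ω) := by
    intro g hg
    refine (ex_pat (Lk := LkR K3 K x n) hQ f_good.2.1 (I := hbF x (K * n))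
      (W := Wr x (K * n)) (fun v hv => ?_) (fun v hv => Wr_hb (Finset.mem_coe.1 hv)) ?_ stop_RA
      (ind_LkR h8 hK hn hg) (one_pat h8 hK hn hg) (fun ξ ξ' h => chi_congr h)
      (fun _ _ _ _ => rfl)).symm
    · rw [mem_hbF'] at hv ⊢
      omega
    · rintro v ⟨h1, h2, h3, h4⟩ h5
      rw [mem_hbF'] at h5
      refine ⟨fun h6 => ?_, rfl⟩
      rw [mem_hbF'] at h6
      omega
  rw [Finset.sum_congr rfl e1, ← Ex_sum]
  unfold FK.Pr
  refine Ex_mono hQ fun T _ => ?_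
  set ω := cf (hbF x (K0 * n)) eta0 T
  have hnn : ∀ g ∈ Pa K3 K x n, (0 : ℝ) ≤ {ω | pat (RA K3 K x n) ω = g}.indicator 1 ω *
        (LkR K3 K x n g).indicator 1 ω * chi K3 K x n l' (est K3 K x n g) ω := fun g _ =>
    mul_nonneg (mul_nonneg (ind_nonneg _ _) (ind_nonneg _ _)) (ind_nonneg _ _)
  by_cases h : ω ∈ {ξ | ∃ e, Gt K3 K x n ξ e ∧ ArE K3 K x n ξ e ∧
      ArW K3 K x n ξ e ∧ Ctr K3 K x n l' ξ e}
  · rw [Set.indicator_of_mem h]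
    obtain ⟨e, h1, h2, h3, h4⟩ := h
    have h5 := pat_mem h1
    refine le_trans (le_of_eq ?_) (Finset.single_le_sum hnn h5)
    have h6 := est_eq hn h8 hK h1
    rw [Set.indicator_of_mem (show ω ∈ {ω' | pat (RA K3 K x n) ω' = pat (RA K3 K x n) ω} from rfl),
      Set.indicator_of_mem (show ω ∈ LkR K3 K x n (pat (RA K3 K x n) ω) from ?_), h6, chi_one h4]
    · simp
    · show ArE K3 K x n (ovp _ ω) (est K3 K x n _) ∧ ArW K3 K x n (ovp _ ω) (est K3 K x n _)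
      rw [ovp_pat, h6]
      exact ⟨h2, h3⟩
  · rw [Set.indicator_of_notMem h]
    exact Finset.sum_nonneg hnn

/-! ### the densities -/

/-- the density of the common part -/
noncomputable def sd (Q c : ℝ) (K3 K x n l' K0 : ℤ) (S : St) (ρ : ℤ) (ω : Cfg) : ℝ :=
  dens Q S.F S.z (RA K3 K x n) (LkG K3 K S x n ρ) (Pa K3 K x n) (nu Q K3 K x n K0) c ω *
    chi K3 K x n l' (est K3 K x n (pat (RA K3 K x n) ω)) ω

variable {l ρ : ℤ} {S : St}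

/-- minorization of the patterns -/
def Mi (Q c : ℝ) (K3 K x n K0 : ℤ) (S : St) (ρ : ℤ) : Prop := ∀ g ∈ Pa K3 K x n,
  c * nu Q K3 K x n K0 g ≤ FK.Pr Q S.F S.z ({ω | pat (RA K3 K x n) ω = g} ∩ LkG K3 K S x n ρ g)

theorem mi_of (h : ∀ (γ : Cfg) (e : Ed), Gt K3 K x n γ e →
    c * FK.Pr Q (hbF x (K0 * n)) eta0 {ξ | (∀ v ∈ Aq K3 K x n, ξ v = γ v) ∧ ArE K3 K x n ξ e ∧
      ArW K3 K x n ξ e} ≤
    PQ Q S ({ξ | ∀ v ∈ Aq K3 K x n, ξ v = γ v} ∩ Lnk K3 S x n ρ e)) :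
    Mi Q c K3 K x n K0 S ρ := by
  intro g hg
  have h1 := h _ _ (est_gt (mem_Pa.1 hg).2)
  have e1 : {ω | pat (RA K3 K x n) ω = g} ∩ LkR K3 K x n g =
      {ξ | (∀ v ∈ Aq K3 K x n, ξ v = pc g v) ∧ ArE K3 K x n ξ (est K3 K x n g) ∧
        ArW K3 K x n ξ (est K3 K x n g)} := by
    ext ω
    simp only [Set.mem_inter_iff, Set.mem_ofPred_eq]
    rw [pat_eq_iff hg]
    refine and_congr_right fun h2 => ?_
    have h3 : ovp g ω = ω := ovp_eq (by rw [(mem_Pa.1 hg).1.1]; exact h2)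
    show ArE K3 K x n (ovp g ω) _ ∧ ArW K3 K x n (ovp g ω) _ ↔ _
    rw [h3]
  have e2 : {ω | pat (RA K3 K x n) ω = g} ∩ LkG K3 K S x n ρ g =
      {ξ | ∀ v ∈ Aq K3 K x n, ξ v = pc g v} ∩ Lnk K3 S x n ρ (est K3 K x n g) := by
    ext ω
    simp only [Set.mem_inter_iff, Set.mem_ofPred_eq]
    rw [pat_eq_iff hg]
    refine and_congr_right fun h2 => ?_
    have h3 : ovp g ω = ω := ovp_eq (by rw [(mem_Pa.1 hg).1.1]; exact h2)
    show ovp g ω ∈ Lnk K3 S x n ρ _ ↔ _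
    rw [h3]
  unfold nu
  rw [e1, e2]
  exact h1

theorem nu_nonneg (hQ : 0 < Q) : 0 ≤ nu Q K3 K x n K0 g := Pr_nonneg hQ _

theorem sd_mem (hQ : 0 < Q) (hc : 0 ≤ c) (hM : Mi Q c K3 K x n K0 S ρ) (ω : Cfg) :
    0 ≤ sd Q c K3 K x n l' K0 S ρ ω ∧ sd Q c K3 K x n l' K0 S ρ ω ≤ 1 := by
  have h1 := dens_nonneg (D := S.F) (η := S.z) (R := RA K3 K x n) (Lk := LkG K3 K S x n ρ)
    (𝒢 := Pa K3 K x n) (ν := nu Q K3 K x n K0) (c := c) hQ hc (fun g _ => nu_nonneg hQ) ω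
  have h2 := dens_le_one (D := S.F) (η := S.z) (R := RA K3 K x n) (Lk := LkG K3 K S x n ρ)
    (𝒢 := Pa K3 K x n) (ν := nu Q K3 K x n K0) (c := c) hc (fun g _ => nu_nonneg hQ) hM ω
  exact ⟨mul_nonneg h1 (ind_nonneg _ _), mul_le_one₀ h2 (ind_nonneg _ _) (ind_le_one _ _)⟩

theorem Sg.hrow (h : Sg K3 K x n l' l ρ S) :
    ∀ v ∈ Wr x (K * n), v ∉ hbF x (K * n) → v ∉ S.F ∧ S.z v = false := by
  rintro v ⟨h1, h2, h3, h4⟩ h5
  rw [mem_hbF'] at h5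
  have h6 := h.num
  have h7 := h.hl
  have h8 := h.hρ
  have h9 := h.hn
  exact h.hT.gq.row v (by omega) (by omega) (by omega) (by omega)

theorem Sg.hID (h : Sg K3 K x n l' l ρ S) : hbF x (K * n) ⊆ S.F := by
  intro v hv
  rw [mem_hbF'] at hv
  have h6 := h.num
  have h7 := h.hl
  have h8 := h.hρ
  have h9 := h.hn
  exact h.hT.fresh v ⟨by omega, by omega, by omega, by omega⟩

theorem ex_sd (hQ : 0 < Q) (hc : 0 < c) (h : Sg K3 K x n l' l ρ S)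
    (hM : Mi Q c K3 K x n K0 S ρ) {Φ : Cfg → ℝ} {φ : Pat → Cfg → ℝ}
    (hφ : ∀ g ∈ Pa K3 K x n, ∀ ξ ξ' : Cfg, (∀ v ∈ Wr x (K * n), ξ' v = ξ v) → φ g ξ' = φ g ξ)
    (hΦ : ∀ ω, Full S ω → ω ∈ Lnk K3 S x n ρ (est K3 K x n (pat (RA K3 K x n) ω)) →
      Gt K3 K x n ω (est K3 K x n (pat (RA K3 K x n) ω)) →
      chi K3 K x n l' (est K3 K x n (pat (RA K3 K x n) ω)) ω * Φ ω =
        φ (pat (RA K3 K x n) ω) ω) :
    EQ Q S (fun ω => sd Q c K3 K x n l' K0 S ρ ω * Φ ω) =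
      c * ∑ g ∈ Pa K3 K x n, nu Q K3 K x n K0 g * FK.Ex Q (hbF x (K * n) \ g.1) (pc g) (φ g) := by
  have key := ex_dens (Q := Q) (D := S.F) (η := S.z) (I := hbF x (K * n)) (W := Wr x (K * n))
    (R := RA K3 K x n) (Lk := LkG K3 K S x n ρ) (𝒢 := Pa K3 K x n) (ν := nu Q K3 K x n K0) (c := c)
    hQ h.hT.gq.good h.hID (fun v hv => Wr_hb (Finset.mem_coe.1 hv)) h.hrow stop_RA
    (fun g hg => ind_LkG h.h8 h.hK h.hn hg S ρ) (fun g hg => one_pat h.h8 h.hK h.hn hg) hc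
    (fun g _ => nu_nonneg hQ) hM
    (Φ := fun ω => chi K3 K x n l' (est K3 K x n (pat (RA K3 K x n) ω)) ω * Φ ω) (φ := φ) hφ
    (fun ω h1 h2 h3 => hΦ ω h1 (by
      have h4 : ovp (pat (RA K3 K x n) ω) ω ∈ Lnk K3 S x n ρ _ := h2
      rwa [ovp_pat] at h4) (gt_est h3))
  rw [← key]
  unfold EQ sd
  congr 1
  funext ω
  ring

/-- the mass -/
theorem ex_sd_one (hQ : 0 < Q) (hc : 0 < c) (h : Sg K3 K x n l' l ρ S)
    (hM : Mi Q c K3 K x n K0 S ρ) : EQ Q S (sd Q c K3 K x n l' K0 S ρ) =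
      c * ∑ g ∈ Pa K3 K x n, nu Q K3 K x n K0 g * mc Q K3 K x n l' g := by
  have key := ex_sd (Φ := fun _ => 1) (φ := fun g => chi K3 K x n l' (est K3 K x n g)) hQ hc h hM
    (fun g _ ξ ξ' h1 => chi_congr h1) (fun ω _ _ _ => mul_one _)
  simp only [mul_one] at key
  exact key

/-- the observable -/
theorem ex_sd_J (hQ : 0 < Q) (hc : 0 < c) (h : Sg K3 K x n l' l ρ S)
    (hM : Mi Q c K3 K x n K0 S ρ) {ψ : ℤ → ℝ} {k : ℕ} (hk : (k : ℤ) ≤ n)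
    (hψ : ∀ y, ψ y ≠ 0 → x - ρ + 1 ≤ y ∧ y ≤ x + ρ) :
    EQ Q S (fun ω => sd Q c K3 K x n l' K0 S ρ ω * J S.D S.e0 ψ k ω) =
      c * ∑ g ∈ Pa K3 K x n, nu Q K3 K x n K0 g * mj Q K3 K x n l' ψ k g := by
  refine ex_sd (Φ := J S.D S.e0 ψ k) (φ := fun g ξ => chi K3 K x n l' (est K3 K x n g) ξ *
    J (hbF x (K * n)) (est K3 K x n g) ψ k ξ) hQ hc h hM (fun g _ ξ ξ' h1 => ?_)
    (fun ω h1 h2 h3 => ?_)
  · show chi _ _ _ _ _ _ ξ' * _ = chi _ _ _ _ _ _ ξ * _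
    rw [chi_congr h1, J_loc fun v hv => h1 v (Wr_hb hv)]
  · rw [suc3 h h1 h3 h2 hk hψ]

/-! ### the density is determined by the past -/

theorem sd_ne (h4 : sd Q c K3 K x n l' K0 S ρ ω ≠ 0) :
    (pat (RA K3 K x n) ω ∈ Pa K3 K x n ∧ ω ∈ LkG K3 K S x n ρ (pat (RA K3 K x n) ω)) ∧
      Ctr K3 K x n l' ω (est K3 K x n (pat (RA K3 K x n) ω)) := by
  obtain ⟨h5, h6⟩ := mul_ne_zero_iff.1 h4
  constructor
  · by_contra hc
    exact h5 (dens_eq_zero hc)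
  · by_contra hc
    exact h6 (chi_zero hc)

/-- the strand is determined by the revealed squares -/
theorem ctr_key (h : Sg K3 K x n l' l ρ S) (hG : Gt K3 K x n ω' e) {i : ℕ} {T : ℕ}
    (hT : T = i + hit (hbF x (K * n)) e (Lo x (K * n) (4 * l')) ω) (i1 : st S.e0 ω i = e)
    (p1 : ∀ j ≤ T, st S.e0 ω' j = st S.e0 ω j) (hC : Ctr K3 K x n l' ω e) :
    Ctr K3 K x n l' ω' e := by
  have q1 : st S.e0 ω' i = e := by rw [p1 i (by omega), i1]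
  have q2 : ∀ j ≤ hit (hbF x (K * n)) e (Lo x (K * n) (4 * l')) ω, st e ω' j = st e ω j := by
    intro j hj
    have a1 := p1 (i + j) (by omega)
    rwa [Bs.st_add, Bs.st_add, q1, i1] at a1
  obtain ⟨c1, c2⟩ := hit_mem' hC.1
  have q3 : hit (hbF x (K * n)) e (Lo x (K * n) (4 * l')) ω' =
      hit (hbF x (K * n)) e (Lo x (K * n) (4 * l')) ω := by
    refine Bs.hit_eq_of (Or.inl ?_) fun j hj => ?_
    · rw [q2 _ le_rfl]
      exact c1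
    · rw [q2 j hj.le]
      have h10 := Nat.notMem_of_lt_sInf hj
      simp only [Set.mem_ofPred_eq, not_or, not_not] at h10
      exact h10
  obtain ⟨y, y1, y2, y3, y4, y5⟩ := suc2 h hG q1
  refine ⟨?_, ?_⟩
  · rw [q3]
    by_contra hc
    push Not at hc
    have a1 := c2 _ hc
    rw [← q2 _ hc, y1, y4, mem_hbF'] at a1
    omega
  · rw [q3, q2 _ le_rfl]
    exact hC.2

/-- agreement off the centre -/
theorem agree_key (h : Sg K3 K x n l' l ρ S) {r : ℤ} (hr : r ≤ n) (h1 : Full S ω) (h2 : Full S ω')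
    (h3 : ∀ v ∈ RC S x ρ l' r ω, ω' v = ω v)
    (i3 : |(hdv (st S.e0 ω (hit S.D S.e0 (Lo x ρ (4 * l')) ω))).1 - x| ≤ (K3 - 1) * n) :
    ∀ v, v ∉ Cq K3 x n → ω' v = ω v := by
  classical
  have hcf := h1.cf
  have hX : S.X1 (Lo x ρ (4 * l')) ω = st S.e0 ω (hit S.D S.e0 (Lo x ρ (4 * l')) ω) := by
    show st S.e0 (S.cf ω) (hit S.D S.e0 _ (S.cf ω)) = _
    rw [hcf]
  intro v hv
  by_cases hF : v ∈ S.F
  · refine h3 v (Finset.mem_union_right _ (Finset.mem_filter.2 ⟨hF, ?_⟩))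
    rw [hX]
    rintro ⟨a1, a2, a3, a4⟩
    apply hv
    rw [Cq, mem_Rc]
    have hn1 := h.hn
    have := abs_le.1 i3
    have h9 : (K3 - 1) * n = K3 * n - n := by ring
    omega
  · rw [h1 v hF, h2 v hF]

theorem sd_key (h : Sg K3 K x n l' l ρ S) {r : ℤ} (hr : r ≤ n) (h1 : Full S ω) (h2 : Full S ω')
    (h3 : ∀ v ∈ RC S x ρ l' r ω, ω' v = ω v) (h4 : sd Q c K3 K x n l' K0 S ρ ω ≠ 0) :
    sd Q c K3 K x n l' K0 S ρ ω' = sd Q c K3 K x n l' K0 S ρ ω := by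
  obtain ⟨⟨hP, hL0⟩, hC⟩ := sd_ne h4
  have hG := gt_est hP
  have hL1 : ovp (pat (RA K3 K x n) ω) ω ∈
      Lnk K3 S x n ρ (est K3 K x n (pat (RA K3 K x n) ω)) := hL0
  have hL : ω ∈ Lnk K3 S x n ρ (est K3 K x n (pat (RA K3 K x n) ω)) := by
    rwa [ovp_pat] at hL1
  obtain ⟨i, i1, i2, i3⟩ := suc4 h h1 hG hL hC
  have hag := agree_key h hr h1 h2 h3 i3
  have hagA : ∀ v ∈ Aq K3 K x n, ω' v = ω v := fun v hv =>
    hag v (Finset.mem_sdiff.1 hv).2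
  have hpat : pat (RA K3 K x n) ω' = pat (RA K3 K x n) ω := pat_congr stop_RA hagA
  have hRV : ∀ q ∈ S.RV (Lo x ρ (4 * l')) ω, ω' q = ω q := fun q hq =>
    h3 q (Finset.mem_union_left _ hq)
  obtain ⟨p1, p2⟩ := RV_path h.hT.st hRV
  rw [h1.cf, h2.cf] at p1
  have hC' := ctr_key h (hG.congr hagA) i2 i1 p1 hC
  have hD : dens Q S.F S.z (RA K3 K x n) (LkG K3 K S x n ρ) (Pa K3 K x n) (nu Q K3 K x n K0) c ω' =
      dens Q S.F S.z (RA K3 K x n) (LkG K3 K S x n ρ) (Pa K3 K x n) (nu Q K3 K x n K0) c ω := by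
    have hL2 : ovp (pat (RA K3 K x n) ω) ω' ∈
        Lnk K3 S x n ρ (est K3 K x n (pat (RA K3 K x n) ω)) :=
      Lnk.congr (ξ := ovp (pat (RA K3 K x n) ω) ω) (fun v hv => by
        unfold ovp
        split_ifs with a1
        · rfl
        · exact hag v hv) hL1
    exact dens_congr stop_RA hagA ⟨fun _ => hL2, fun _ => hL0⟩
  have hX : chi K3 K x n l' (est K3 K x n (pat (RA K3 K x n) ω')) ω' =
      chi K3 K x n l' (est K3 K x n (pat (RA K3 K x n) ω)) ω := by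
    rw [hpat, chi_one hC, chi_one hC']
  unfold sd
  rw [hD, hX]

theorem sd_past (h : Sg K3 K x n l' l ρ S) {r : ℤ} (hr : r ≤ n) :
    PastS S (RC S x ρ l' r) (sd Q c K3 K x n l' K0 S ρ) := by
  classical
  intro ω ω' h1 h2 h3
  by_cases h4 : sd Q c K3 K x n l' K0 S ρ ω = 0
  · rw [h4]
    by_contra h5
    refine h5 ?_
    rw [← h4]
    refine (sd_key h hr h2 h1 (fun v hv => ?_) h5).symm
    have hRV : ∀ q ∈ S.RV (Lo x ρ (4 * l')) ω, ω' q = ω q := fun q hq =>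
      h3 q (Finset.mem_union_left _ hq)
    have e1 : S.RV (Lo x ρ (4 * l')) ω' = S.RV (Lo x ρ (4 * l')) ω :=
      stopSet_RV h.hT.st _ ω ω' hRV
    have e2 : S.X1 (Lo x ρ (4 * l')) ω' = S.X1 (Lo x ρ (4 * l')) ω :=
      past_X1 h.hT.st _ ω ω' hRV
    unfold RC at hv
    rw [e1, e2] at hv
    exact (h3 v hv).symm
  · exact sd_key h hr h1 h2 h3 h4

end Vale.Agent.P167.H318.UQ
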