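import Vale.Agent.P167.H318.Q.Suc

/-!
# P167, general `q`, block Q-NSYM: the common part

`Pa` = patterns of the half annulus `Aq` with a gate, `est g` the gate of the pattern `g`, `LkG S g` the
links, `LkR g` the arms (reference law), `nu` the reference masses.
-/

namespace Vale.Agent.P167.H318.UQ

open Finset Vale.Agent.P167 Vale.Agent.P167.FK Vale.Agent.P167.FKA Vale.Agent.P167.H318 Relation
open Vale.Agent.P145.FB (PStep PConn)
open Vale.Agent.P167.H558 (StopSet Past)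
open Vale.Agent.P167.H685.Q (EQ PQ Gq TC win hbF mem_hbF Wr One Ent RC PastS Pat pat pc pat_fst
  mem_pat_snd pat_congr good_pc cf_in dens dens_nonneg dens_le_one dens_congr dens_eq_zero ex_pat
  ex_dens)
open Vale.Agent.P167.H318 (st ex hit cnt)

variable {K3 K x n l' : ℤ} {e : Ed} {ξ ξ' ω ω' : Cfg} {g : Pat}

/-! ### patterns -/

/-- the explored squares: the half annulus -/
noncomputable def RA (K3 K x n : ℤ) : Cfg → Finset (ℤ × ℤ) := fun _ => Aq K3 K x n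

theorem stop_RA : StopSet (RA K3 K x n) := StopSet.const _

open Classical in
/-- the patterns with a gate -/
noncomputable def Pa (K3 K x n : ℤ) : Finset Pat :=
  (({Aq K3 K x n} : Finset (Finset (ℤ × ℤ))) ×ˢ (Aq K3 K x n).powerset).filter fun g =>
    ∃ e, Gt K3 K x n (pc g) e

theorem mem_Pa : g ∈ Pa K3 K x n ↔
    (g.1 = Aq K3 K x n ∧ g.2 ⊆ Aq K3 K x n) ∧ ∃ e, Gt K3 K x n (pc g) e := by
  classical
  unfold Pa
  rw [Finset.mem_filter, Finset.mem_product, Finset.mem_singleton, Finset.mem_powerset]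

open Classical in
/-- the gate of a pattern -/
noncomputable def est (K3 K x n : ℤ) (g : Pat) : Ed :=
  if h : ∃ e, Gt K3 K x n (pc g) e then h.choose else Sum.inr (0, 0)

theorem est_gt (h : ∃ e, Gt K3 K x n (pc g) e) : Gt K3 K x n (pc g) (est K3 K x n g) := by
  unfold est
  rw [dif_pos h]
  exact h.choose_spec

/-- the pattern determines the configuration on the half annulus -/
theorem pc_pat {v : ℤ × ℤ} (hv : v ∈ Aq K3 K x n) : pc (pat (RA K3 K x n) ω) v = ω v := by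
  have h1 : v ∈ (pat (RA K3 K x n) ω).1 := hv
  unfold pc
  rw [cf_in h1]
  by_cases h2 : ω v = true
  · rw [h2]
    simpa using mem_pat_snd.2 ⟨hv, h2⟩
  · have h3 : ω v = false := by simpa using h2
    rw [h3]
    simp only [decide_eq_false_iff_not]
    exact fun h4 => h2 (mem_pat_snd.1 h4).2

theorem pat_eq_iff (hg : g ∈ Pa K3 K x n) :
    pat (RA K3 K x n) ω = g ↔ ∀ v ∈ Aq K3 K x n, ω v = pc g v := by
  obtain ⟨⟨h1, h2⟩, -⟩ := mem_Pa.1 hg
  constructor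
  · rintro rfl v hv
    exact (pc_pat hv).symm
  · intro h
    refine Prod.ext ?_ ?_
    · rw [h1]; rfl
    · ext v
      rw [mem_pat_snd]
      constructor
      · rintro ⟨h3, h4⟩
        have h5 := h v h3
        rw [h4] at h5
        unfold pc at h5
        rw [cf_in (by rw [h1]; exact h3)] at h5
        simpa using h5.symm
      · intro h3
        have h4 : v ∈ Aq K3 K x n := h2 h3
        refine ⟨h4, ?_⟩
        rw [h v h4]
        unfold pc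
        rw [cf_in (by rw [h1]; exact h4)]
        simpa using h3

theorem pat_mem (h : Gt K3 K x n ω e) : pat (RA K3 K x n) ω ∈ Pa K3 K x n :=
  mem_Pa.2 ⟨⟨rfl, fun _ hv => (mem_pat_snd.1 hv).1⟩, e, h.congr fun _ hv => pc_pat hv⟩

/-- the gate of the pattern is a gate of the configuration -/
theorem gt_est (h : pat (RA K3 K x n) ω ∈ Pa K3 K x n) :
    Gt K3 K x n ω (est K3 K x n (pat (RA K3 K x n) ω)) :=
  (est_gt (mem_Pa.1 h).2).congr fun _ hv => (pc_pat hv).symm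

theorem est_eq (hn : 1 ≤ n) (h8 : 8 ≤ K3) (hK : K3 + 8 ≤ K) (h : Gt K3 K x n ω e) :
    est K3 K x n (pat (RA K3 K x n) ω) = e :=
  gt_unique hn h8 hK (gt_est (pat_mem h)) h

/-! ### links and arms -/

open Classical in
/-- the pattern on the explored squares, `ω` elsewhere -/
noncomputable def ovp (g : Pat) (ω : Cfg) : Cfg := fun v => if v ∈ g.1 then pc g v else ω v

theorem ovp_eq (h : ∀ v ∈ g.1, ω v = pc g v) : ovp g ω = ω := by
  funext v
  unfold ovp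
  split_ifs with hv
  · exact (h v hv).symm
  · rfl

theorem ovp_pat : ovp (pat (RA K3 K x n) ω) ω = ω := ovp_eq fun _ hv => (pc_pat hv).symm

/-- the links of the pattern `g` -/
def LkG (K3 K : ℤ) (S : St) (x n ρ : ℤ) (g : Pat) : Set Cfg :=
  {ω | ovp g ω ∈ Lnk K3 S x n ρ (est K3 K x n g)}

/-- the arms of the pattern `g` -/
def LkR (K3 K x n : ℤ) (g : Pat) : Set Cfg :=
  {ω | ArE K3 K x n (ovp g ω) (est K3 K x n g) ∧ ArW K3 K x n (ovp g ω) (est K3 K x n g)}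

theorem Lnk.congr {S : St} {ρ : ℤ} (h : ∀ v, v ∉ Cq K3 x n → ξ' v = ξ v)
    (hL : ξ ∈ Lnk K3 S x n ρ e) : ξ' ∈ Lnk K3 S x n ρ e := by
  obtain ⟨⟨i, hi, p1⟩, ⟨j, hj, p2⟩⟩ := hL
  refine ⟨⟨i, hi, p1.1, ReflTransGen.mono (fun a b hab => ⟨⟨hab.1.1, hab.1.2.1, ?_,
    hab.1.2.2.2⟩, hab.2⟩) _ _ p1.2⟩, ⟨j, hj, p2.1, ReflTransGen.mono (fun a b hab =>
    ⟨⟨hab.1.1, hab.1.2.1, ?_, hab.1.2.2.2⟩, hab.2⟩) _ _ p2.2⟩⟩
  · have h3 := hab.1.2.2
    show ξ' _ = true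
    rw [h _ fun hc => h3.2 (Finset.mem_coe.2 hc)]
    exact h3.1
  · have h3 := hab.1.2.2
    show ¬ ξ' _ = true
    rw [h _ fun hc => h3.2 (Finset.mem_coe.2 hc)]
    exact h3.1

theorem ind_set {A : Finset (ℤ × ℤ)} {E : Set Cfg}
    (h : ∀ ω ω' : Cfg, (∀ v, v ∉ A → ω v = ω' v) → ω ∈ E → ω' ∈ E) : Ind A (E.indicator 1) := by
  intro ω ω' h1
  by_cases h2 : ω ∈ E
  · rw [Set.indicator_of_mem h2, Set.indicator_of_mem (h ω ω' h1 h2)]
    rfl
  · rw [Set.indicator_of_notMem h2, Set.indicator_of_notMem fun h3 =>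
      h2 (h ω' ω (fun v hv => (h1 v hv).symm) h3)]

theorem mem_hb_iff (h8 : 8 ≤ K3) (hK : K3 + 8 ≤ K) (hn : 1 ≤ n) {v : ℤ × ℤ} :
    v ∈ hbF x (K * n) ↔ v ∈ Aq K3 K x n ∨ v ∈ Cq K3 x n := by
  have h1 : 8 * n ≤ K3 * n := by nlinarith
  have h2 : K3 * n + 8 * n ≤ K * n := by nlinarith
  unfold Aq
  rw [Finset.mem_sdiff]
  by_cases h3 : v ∈ Cq K3 x n
  · have h4 : v ∈ hbF x (K * n) := by
      rw [mem_hbF']
      rw [Cq, mem_Rc] at h3
      omega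
    tauto
  · tauto

theorem sdiff_Aq (h8 : 8 ≤ K3) (hK : K3 + 8 ≤ K) (hn : 1 ≤ n) :
    hbF x (K * n) \ Aq K3 K x n = Cq K3 x n := by
  ext v
  rw [Finset.mem_sdiff, mem_hb_iff h8 hK hn]
  have : v ∈ Cq K3 x n → v ∉ Aq K3 K x n := fun h1 h2 => (Finset.mem_sdiff.1 h2).2 h1
  tauto

theorem ovp_agree (h8 : 8 ≤ K3) (hK : K3 + 8 ≤ K) (hn : 1 ≤ n) (hg : g.1 = Aq K3 K x n)
    (h : ∀ v, v ∉ hbF x (K * n) → ω v = ω' v) :
    ∀ v, v ∉ Cq K3 x n → ovp g ω' v = ovp g ω v := by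
  intro v hv
  unfold ovp
  split_ifs with h1
  · rfl
  · refine (h v fun h2 => ?_).symm
    rw [hg] at h1
    exact ((mem_hb_iff h8 hK hn).1 h2).elim h1 hv

theorem ind_LkG (h8 : 8 ≤ K3) (hK : K3 + 8 ≤ K) (hn : 1 ≤ n) (hg : g ∈ Pa K3 K x n) (S : St)
    (ρ : ℤ) : Ind (hbF x (K * n)) ((LkG K3 K S x n ρ g).indicator 1) :=
  ind_set fun _ _ h1 h2 => Lnk.congr (ovp_agree h8 hK hn (mem_Pa.1 hg).1.1 h1) h2

theorem ind_LkR (h8 : 8 ≤ K3) (hK : K3 + 8 ≤ K) (hn : 1 ≤ n) (hg : g ∈ Pa K3 K x n) :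
    Ind (hbF x (K * n)) ((LkR K3 K x n g).indicator 1) := by
  refine ind_set fun ω ω' h1 h2 => ?_
  have key := ovp_agree (g := g) h8 hK hn (mem_Pa.1 hg).1.1 h1
  have hC : ∀ v ∈ Aq K3 K x n ∪ Te K x n, v ∉ Cq K3 x n := by
    intro v hv hc
    rcases Finset.mem_union.1 hv with h3 | h3
    · exact (Finset.mem_sdiff.1 h3).2 hc
    · rw [Te, mem_Rc] at h3
      rw [Cq, mem_Rc] at hc
      have h4 : K3 * n + 8 * n ≤ K * n := by nlinarith
      omega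
  have hC' : ∀ v ∈ Aq K3 K x n ∪ Tw K x n, v ∉ Cq K3 x n := by
    intro v hv hc
    rcases Finset.mem_union.1 hv with h3 | h3
    · exact (Finset.mem_sdiff.1 h3).2 hc
    · rw [Tw, mem_Rc] at h3
      rw [Cq, mem_Rc] at hc
      have h4 : K3 * n + 8 * n ≤ K * n := by nlinarith
      omega
  obtain ⟨⟨b, hb, h3⟩, ⟨b', hb', h4⟩⟩ := h2
  exact ⟨⟨b, hb, h3.congr fun v hv => key v (hC v (Finset.mem_filter.1 hv).1)⟩,
    ⟨b', hb', h4.congr fun v hv => key v (hC' v (Finset.mem_filter.1 hv).1)⟩⟩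

/-- centre indicator -/
noncomputable def chi (K3 K x n l' : ℤ) (e : Ed) : Cfg → ℝ := {ξ | Ctr K3 K x n l' ξ e}.indicator 1

theorem Wr_hb {v : ℤ × ℤ} (h : v ∈ hbF x (K * n)) : v ∈ Wr x (K * n) := by
  rw [mem_hbF'] at h
  exact ⟨h.1.1, h.1.2, by omega, h.2.2⟩

theorem chi_congr (h : ∀ v ∈ Wr x (K * n), ξ' v = ξ v) :
    chi K3 K x n l' e ξ' = chi K3 K x n l' e ξ := by
  unfold chi
  by_cases h2 : Ctr K3 K x n l' ξ e
  · rw [Set.indicator_of_mem (show ξ ∈ {ξ | Ctr K3 K x n l' ξ e} from h2), Set.indicator_of_mem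
      (show ξ' ∈ {ξ | Ctr K3 K x n l' ξ e} from h2.congr fun v hv => h v (Wr_hb hv))]
    rfl
  · rw [Set.indicator_of_notMem (show ξ ∉ {ξ | Ctr K3 K x n l' ξ e} from h2),
      Set.indicator_of_notMem (show ξ' ∉ {ξ | Ctr K3 K x n l' ξ e} from fun h3 =>
        h2 (Ctr.congr (fun v hv => (h v (Wr_hb hv)).symm) h3))]

theorem chi_one (h : Ctr K3 K x n l' ξ e) : chi K3 K x n l' e ξ = 1 :=
  Set.indicator_of_mem (show ξ ∈ {ξ | Ctr K3 K x n l' ξ e} from h) _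

theorem chi_zero (h : ¬ Ctr K3 K x n l' ξ e) : chi K3 K x n l' e ξ = 0 :=
  Set.indicator_of_notMem (show ξ ∉ {ξ | Ctr K3 K x n l' ξ e} from h) _

/-- one entrance -/
theorem one_pat (h8 : 8 ≤ K3) (hK : K3 + 8 ≤ K) (hn : 1 ≤ n) (hg : g ∈ Pa K3 K x n) :
    One (Wr x (K * n)) ↑(hbF x (K * n) \ g.1) (pc g) := by
  rw [(mem_Pa.1 hg).1.1, sdiff_Aq h8 hK hn]
  refine (one_gt hn h8 hK (est_gt (mem_Pa.1 hg).2) fun y _ _ => ?_).2
  unfold pc
  rw [cf_out]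
  · rfl
  · intro h
    rw [(mem_Pa.1 hg).1.1, mem_Aq] at h
    omega

end Vale.Agent.P167.H318.UQ
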