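import Vale.Agent.P167.H318.Q.Suc2
import Vale.Agent.P167.H704.Q.GDefs

/-!
# P167, general `q`, block Q-NSYM: SUCCA

`SUCCA` from `MINOR'` (minorization of the gates) and `GREF'` (mass of the gates).
-/

namespace Vale.Agent.P167.H318.UQ

open Finset Vale.Agent.P167 Vale.Agent.P167.FK Vale.Agent.P167.FKA Vale.Agent.P167.H318
open Vale.Agent.P167.H685.Q (EQ PQ TC win RC PastS SUCCA)
open Vale.Agent.P167.H704.Q (MINOR' GREF')

/-- the scale of the gate -/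
theorem scale {K1 l : ℤ} (h1 : 1 ≤ K1) (h : K1 ≤ l) :
    1 ≤ l / K1 ∧ K1 * (l / K1) ≤ l ∧ l ≤ 2 * K1 * (l / K1) := by
  have h2 : 1 ≤ l / K1 := by
    rw [Int.le_ediv_iff_mul_le (by omega)]
    omega
  have h3 := Int.mul_ediv_self_le (x := l) (k := K1) (by omega)
  have h4 := Int.lt_mul_ediv_self_add (x := l) (k := K1) (by omega)
  refine ⟨h2, h3, ?_⟩
  nlinarith

theorem win_ne {ρ y : ℤ} (hρ : 2 ≤ ρ) (h : win 1 (ρ / 2) y ≠ 0) : 1 - ρ + 1 ≤ y ∧ y ≤ 1 + ρ := by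
  unfold win at h
  split_ifs at h with h1
  · omega
  · exact (h rfl).elim

/-- **SUCCA** -/
theorem succa {Q : ℝ} (hQ : 0 < Q) (hM : MINOR' Q) (hR : GREF' Q) : SUCCA Q := by
  classical
  obtain ⟨K3, K, Ka, h8, hK, hR⟩ := hR
  obtain ⟨Kb, hM⟩ := hM K3 K h8 hK
  set K0 := max (max Ka Kb) K with hK0
  obtain ⟨K6, hR⟩ := hR K0 (by omega)
  obtain ⟨K6', hK6, hM⟩ := hM K0 (by omega)
  set K1 := max K6 K6' with hK1
  obtain ⟨na, ca, hna, hca, hR⟩ := hR K1 (by omega)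
  obtain ⟨nb, cb, hnb, hcb, hM⟩ := hM K1 (by omega)
  have hK1' : K ≤ K1 := by omega
  refine ⟨cb * ca, 1, 1, max (max na nb) (K1 + 20), mul_pos hcb hca, one_pos, one_pos, by omega,
    fun M l' k hML hk hl' => ?_⟩
  have hk' : (1 : ℤ) ≤ k := by exact_mod_cast hk
  have hM1 : K1 + 20 ≤ M := by omega
  have hl1 : 1 ≤ l' := by nlinarith [le_max_right (max na nb) (K1 + 20)]
  have hlk : (k : ℤ) ≤ l' := by nlinarith [le_max_right (max na nb) (K1 + 20)]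
  set l := M ^ 2 * l' with hl
  set ρ := M ^ 3 * l' with hρ
  have hlM : l = M * (M * l') := by rw [hl]; ring
  have hρM : ρ = M * l := by rw [hl, hρ]; ring
  have hMl : M ≤ M * l' := by nlinarith
  have hMl' : l' ≤ M * l' := by nlinarith
  have hlK : K1 * (M * l') ≤ l := by rw [hlM]; nlinarith
  have h20 : 20 * l ≤ ρ := by
    have : 0 ≤ l := by rw [hlM]; nlinarith
    rw [hρM]
    nlinarith
  have hKl : K1 ≤ l := by nlinarith
  obtain ⟨n1, n2, n3⟩ := scale (K1 := K1) (by omega) hKl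
  set n := l / K1 with hn
  have hMn : M * l' ≤ n := by
    rw [hn, Int.le_ediv_iff_mul_le (by omega), mul_comm]
    exact hlK
  have h4n : 4 * l' ≤ n := by nlinarith
  have hnn : K1 + 20 ≤ n := by omega
  have hna' : max na nb ≤ n := by omega
  by_cases hex : ∃ S : St, TC S l 1 ρ
  · obtain ⟨S0, hS0⟩ := hex
    refine ⟨cb * ∑ g ∈ Pa K3 K 1 n, nu Q K3 K 1 n K0 g * mc Q K3 K 1 n l' g,
      cb * ∑ g ∈ Pa K3 K 1 n, nu Q K3 K 1 n K0 g * mj Q K3 K 1 n l' (win 1 (ρ / 2)) k g, ?_, ?_⟩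
    · refine mul_le_mul_of_nonneg_left ?_ hcb.le
      exact (hR S0 l 1 ρ n l' (by omega) hl1 h4n n2 n3 h20 hS0).trans
        (ref_mass hQ h8 hK n1 (by omega))
    · intro S hS
      have hg : Sg K3 K 1 n l' l ρ S :=
        ⟨n1, h8, hK, by nlinarith, h20, h4n, hS⟩
      have hMi : Mi Q cb K3 K 1 n K0 S ρ := mi_of fun γ e hG =>
        hM S l 1 ρ n γ e (by omega) n2 n3 h20 hS hG
      refine ⟨sd Q cb K3 K 1 n l' K0 S ρ, sd_mem hQ hcb.le hMi, sd_past hg hMn,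
        ex_sd_one hQ hcb hg hMi, ?_⟩
      rw [ex_sd_J hQ hcb hg hMi (by omega) (fun y hy => win_ne (by omega) hy), sub_self, abs_zero]
      have : (0 : ℝ) < M := by exact_mod_cast (by omega : (0 : ℤ) < M)
      positivity
  · exact ⟨cb * ca, 0, le_rfl, fun S hS => (hex ⟨S, hS⟩).elim⟩

end Vale.Agent.P167.H318.UQ
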