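import Vale.Agent.P167.H318.Q.Gate
import Vale.Agent.P167.H318.GT3
import Vale.Agent.P167.H318.Co

/-!
# P167, general `q`, block Q-NSYM: topology of the gate (AFT, ONE)
-/

namespace Vale.Agent.P167.H318.UQ

open Finset Vale.Agent.P167 Vale.Agent.P167.FK Vale.Agent.P167.H318 Relation
open Vale.Agent.P145.FB (PStep PConn)
open Vale.Agent.P167.H685.Q (hbF mem_hbF Wr One Ent)
open Vale.Agent.P167.H632 (Ex sq_inl sq_inr ex_rect)
open Vale.Agent.P167.H318 (st ex hit cnt)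

/-! ### complements -/

/-- vertical segments -/
theorem seg_v {P : ℤ × ℤ → Prop} {a s t : ℤ} (h : ∀ y, min s t ≤ y → y ≤ max s t → P (a, y)) :
    ReflTransGen (fun p q => Adj p q ∧ P q) (a, s) (a, t) := by
  obtain ⟨n, hn⟩ : ∃ n : ℕ, (t - s).natAbs = n := ⟨_, rfl⟩
  induction n generalizing t with
  | zero =>
    have : t = s := by omega
    rw [this]
  | succ n ih =>
    rcases le_total s t with hst | hst
    · have h1 := ih (t := t - 1) (fun y hy hy' => h y (by omega) (by omega)) (by omega)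
      exact h1.tail ⟨Or.inl ⟨rfl, Or.inl (by simp)⟩, h t (by omega) (by omega)⟩
    · have h1 := ih (t := t + 1) (fun y hy hy' => h y (by omega) (by omega)) (by omega)
      exact h1.tail ⟨Or.inl ⟨rfl, Or.inr (by simp)⟩, h t (by omega) (by omega)⟩

/-- horizontal segments -/
theorem seg_h {P : ℤ × ℤ → Prop} {b s t : ℤ} (h : ∀ y, min s t ≤ y → y ≤ max s t → P (y, b)) :
    ReflTransGen (fun p q => Adj p q ∧ P q) (s, b) (t, b) := by
  obtain ⟨n, hn⟩ : ∃ n : ℕ, (t - s).natAbs = n := ⟨_, rfl⟩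
  induction n generalizing t with
  | zero =>
    have : t = s := by omega
    rw [this]
  | succ n ih =>
    rcases le_total s t with hst | hst
    · have h1 := ih (t := t - 1) (fun y hy hy' => h y (by omega) (by omega)) (by omega)
      exact h1.tail ⟨Or.inr ⟨rfl, Or.inl (by simp)⟩, h t (by omega) (by omega)⟩
    · have h1 := ih (t := t + 1) (fun y hy hy' => h y (by omega) (by omega)) (by omega)
      exact h1.tail ⟨Or.inr ⟨rfl, Or.inr (by simp)⟩, h t (by omega) (by omega)⟩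

/-- the complement of a rectangle is connected -/
theorem co_rect (a b c d : ℤ) : CoConn (Rc a b c d) := by
  have hP : ∀ v : ℤ × ℤ, v ∉ Rc a b c d ↔ (v.1 < a ∨ b < v.1 ∨ v.2 < c ∨ d < v.2) := by
    intro v
    rw [mem_Rc]
    omega
  have key : ∀ v : ℤ × ℤ, v ∉ Rc a b c d →
      ReflTransGen (fun p q => Adj p q ∧ q ∉ Rc a b c d) v (max (b + 1) v.1, v.2) ∨
      ReflTransGen (fun p q => Adj p q ∧ q ∉ Rc a b c d) v (v.1, min (c - 1) v.2) := by
    rintro ⟨v1, v2⟩ hv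
    rw [hP] at hv
    dsimp only at hv ⊢
    by_cases h : b < v1 ∨ v2 < c ∨ d < v2
    · left
      refine seg_h (P := fun q => q ∉ Rc a b c d) fun y hy hy' => ?_
      rw [hP]
      dsimp only
      omega
    · right
      refine seg_v (P := fun q => q ∉ Rc a b c d) fun y hy hy' => ?_
      rw [hP]
      dsimp only
      omega
  -- everything is joined to `(b + 1, c - 1)`
  have big : ∀ v : ℤ × ℤ, v ∉ Rc a b c d →
      ReflTransGen (fun p q => Adj p q ∧ q ∉ Rc a b c d) v (b + 1, c - 1) := by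
    rintro ⟨v1, v2⟩ hv
    rcases key _ hv with h | h
    · dsimp only at h
      refine h.trans ?_
      refine (seg_v (P := fun q => q ∉ Rc a b c d) (t := c - 1) fun y hy hy' => ?_).trans
        (seg_h (P := fun q => q ∉ Rc a b c d) fun y hy hy' => ?_)
      · rw [hP]
        dsimp only
        omega
      · rw [hP]
        dsimp only
        omega
    · dsimp only at h
      refine h.trans ?_
      refine (seg_h (P := fun q => q ∉ Rc a b c d) (t := b + 1) fun y hy hy' => ?_).trans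
        (seg_v (P := fun q => q ∉ Rc a b c d) fun y hy hy' => ?_)
      · rw [hP]
        dsimp only
        omega
      · rw [hP]
        dsimp only
        omega
  intro p q hp hq
  have h1 := big p hp
  have h2 := big q hq
  refine h1.trans ?_
  -- reverse `h2`
  have rev : ∀ r, ReflTransGen (fun p q => Adj p q ∧ q ∉ Rc a b c d) q r →
      r ∉ Rc a b c d ∧ ReflTransGen (fun p q => Adj p q ∧ q ∉ Rc a b c d) r q := by
    intro r hr
    induction hr with
    | refl => exact ⟨hq, .refl⟩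
    | @tail y z _ hyz ih => exact ⟨hyz.2, .head ⟨hyz.1.symm, ih.1⟩ ih.2⟩
  exact (rev _ h2).2

theorem mem_hbF' {x r : ℤ} {v : ℤ × ℤ} :
    v ∈ hbF x r ↔ (x - r ≤ v.1 ∧ v.1 ≤ x + r) ∧ 0 ≤ v.2 ∧ v.2 ≤ r := by
  rw [mem_hbF]
  simp only [HB, Set.mem_ofPred_eq]
  tauto

theorem mem_Aq {K3 K x n : ℤ} {v : ℤ × ℤ} : v ∈ Aq K3 K x n ↔
    ((x - K * n ≤ v.1 ∧ v.1 ≤ x + K * n) ∧ 0 ≤ v.2 ∧ v.2 ≤ K * n) ∧
    ¬ ((x - K3 * n ≤ v.1 ∧ v.1 ≤ x + K3 * n) ∧ 0 ≤ v.2 ∧ v.2 ≤ 4 * n - 1) := by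
  rw [Aq, Finset.mem_sdiff, mem_hbF', Cq, mem_Rc]

/-- the complement of the half annulus is connected -/
theorem co_Aq {K3 K x n : ℤ} (h34 : K3 * n ≤ K * n) (h4 : 4 * n - 1 ≤ K * n) :
    CoConn (Aq K3 K x n) := by
  classical
  have h1 : CoConn (hbF x (K * n)) := co_rect _ _ _ _
  have hF : Flat (hbF x (K * n)) x (K3 * n) (4 * n) := by
    refine ⟨fun v hv => ?_, fun y _ _ hy => ?_⟩
    · obtain ⟨a1, a2, a3, a4⟩ := hv
      rw [mem_hbF']
      omega
    · rw [mem_hbF'] at hy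
      dsimp only at hy
      omega
  have h2 := coConn_cut h1 hF
  have e : ((hbF x (K * n)).filter fun v => v ∉ Lo x (K3 * n) (4 * n)) = Aq K3 K x n := by
    ext v
    rw [Finset.mem_filter, mem_Aq, mem_hbF']
    simp only [Lo, Set.mem_ofPred_eq]
    constructor
    · rintro ⟨a, b⟩
      exact ⟨a, fun hc => b ⟨by omega, by omega, by omega, by omega⟩⟩
    · rintro ⟨a, b⟩
      exact ⟨a, fun hc => b ⟨by omega, by omega⟩⟩
  rwa [e] at h2

/-! ### potentials along paths -/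

theorem pot_Oc {D : Set (ℤ × ℤ)} {e0 : Ed} {ξ : Cfg} {n : ℕ} {u : ℤ × ℤ → ℤ}
    (hu : ∀ e, (hdv e ∈ D ∨ tlv e ∈ D) → u (ls e) = u (rs e) + cnt e0 ξ n e) (h0 : tlv e0 ∉ D)
    (hn : hdv (st e0 ξ n) ∉ D) {A : Finset (ℤ × ℤ)} (hA : ∀ v ∈ A, v ∈ D) {s s' : ℤ × ℤ}
    (hs : Even (s.1 + s.2)) (h : Oc A ξ s s') : u s = u s' := by
  obtain ⟨-, h2⟩ := h
  have key : Even (s'.1 + s'.2) ∧ u s = u s' := by
    induction h2 with
    | refl => exact ⟨hs, rfl⟩
    | @tail a b _ hab ih =>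
      obtain ⟨i1, i3⟩ := ih
      obtain ⟨v, hv, hst, -⟩ := pstep_sq hab.1
      exact ⟨even_step hst i1, i3.trans (pot_open hu h0 hn (hA v hv.2) i1 hst hv.1)⟩
  exact key.2

theorem pot_Dc {D : Set (ℤ × ℤ)} {e0 : Ed} {ξ : Cfg} {n : ℕ} {u : ℤ × ℤ → ℤ}
    (hu : ∀ e, (hdv e ∈ D ∨ tlv e ∈ D) → u (ls e) = u (rs e) + cnt e0 ξ n e) (h0 : tlv e0 ∉ D)
    (hn : hdv (st e0 ξ n) ∉ D) {A : Finset (ℤ × ℤ)} (hA : ∀ v ∈ A, v ∈ D) {s s' : ℤ × ℤ}
    (hs : Odd (s.1 + s.2)) (h : Dc A ξ s s') : u s = u s' := by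
  obtain ⟨-, h2⟩ := h
  have key : Odd (s'.1 + s'.2) ∧ u s = u s' := by
    induction h2 with
    | refl => exact ⟨hs, rfl⟩
    | @tail a b _ hab ih =>
      obtain ⟨i1, i3⟩ := ih
      obtain ⟨v, hv, hst, -⟩ := pstep_sq hab.1
      have hv' : ξ v = false := by
        rw [← Bool.not_eq_true]; exact hv.1
      exact ⟨odd_step hst i1, i3.trans (pot_dual hu h0 hn (hA v hv.2) i1 hst hv')⟩
  exact key.2

/-- the end of a path of squares of `A` which is not trivial is a corner of a square of `A` -/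
theorem end_cor {F : Set (ℤ × ℤ)} {A : Finset (ℤ × ℤ)} {s t : ℤ × ℤ}
    (h : PConn (F ∩ ↑A) Set.univ s t) (hne : s ≠ t) :
    ∃ v ∈ A, (t.1 = v.1 ∨ t.1 = v.1 + 1) ∧ (t.2 = v.2 ∨ t.2 = v.2 + 1) := by
  obtain ⟨-, h2⟩ := h
  rcases ReflTransGen.cases_tail h2 with h3 | ⟨b, -, hb⟩
  · exact absurd h3.symm hne
  · obtain ⟨v, hv, ⟨h4, h5, h6⟩, h7⟩ := pstep_sq hb.1
    refine ⟨v, hv.2, ?_, ?_⟩
    · rw [h7]; dsimp only; omega
    · rw [h7]; dsimp only; omega

/-! ### AFT -/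

/-- the last entrance and the next exit of a set visited by a strand -/
theorem window {I : Finset (ℤ × ℤ)} {e0 : Ed} {ξ : Cfg} {i : ℕ} (h0 : tlv e0 ∉ I)
    (hi : hdv (st e0 ξ i) ∈ I) : ∃ m n, m ≤ i ∧ i < n ∧ tlv (st e0 ξ m) ∉ I ∧
      (∀ k, m ≤ k → k < n → hdv (st e0 ξ k) ∈ I) ∧ hdv (st e0 ξ n) ∉ I := by
  classical
  have hm : ∃ m, m ≤ i ∧ tlv (st e0 ξ m) ∉ I ∧ ∀ k, m < k → k ≤ i → tlv (st e0 ξ k) ∈ I := by
    have hex : ∃ k, k ≤ i ∧ tlv (st e0 ξ (i - k)) ∉ I := ⟨i, le_rfl, fun h => h0 (by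
      rw [Nat.sub_self] at h
      exact h)⟩
    refine ⟨i - Nat.find hex, Nat.sub_le _ _, (Nat.find_spec hex).2, fun k hk hk' => ?_⟩
    by_contra hcon
    have := Nat.find_min hex (m := i - k) (by omega)
    exact this ⟨by omega, by rw [Nat.sub_sub_self hk']; exact hcon⟩
  obtain ⟨m, hmi, hm1, hm2⟩ := hm
  obtain ⟨N, hN⟩ := Bs.exit_exists (D := I) (e0 := st e0 ξ m) hm1 ξ
  rw [← Bs.st_add] at hN
  have hm3 : ∀ k, m ≤ k → k ≤ i → hdv (st e0 ξ k) ∈ I := by
    intro k hk hk'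
    rcases Nat.lt_or_ge k i with h | h
    · rw [← Bs.tlv_st]
      exact hm2 (k + 1) (by omega) (by omega)
    · rw [show k = i by omega]
      exact hi
  have hn : ∃ n, i ≤ n ∧ hdv (st e0 ξ n) ∉ I := by
    refine ⟨m + N, ?_, hN⟩
    by_contra hcon
    exact hN (hm3 _ (by omega) (by omega))
  refine ⟨m, Nat.find hn, hmi, ?_, hm1, fun k hk hk' => ?_, (Nat.find_spec hn).2⟩
  · have h1 := (Nat.find_spec hn).1
    rcases Nat.lt_or_ge i (Nat.find hn) with h | h
    · exact h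
    · exact absurd hi (by rw [show i = Nat.find hn by omega]; exact (Nat.find_spec hn).2)
  · rcases Nat.lt_or_ge i k with h | h
    · by_contra hcon
      exact Nat.find_min hn hk' ⟨h.le, hcon⟩
    · exact hm3 k hk h

/-- monotone along a row of sites -/
theorem row_mono {u : ℤ × ℤ → ℤ} {a b t : ℤ} (hab : a ≤ b)
    (h : ∀ s, a ≤ s → s < b → u (s, t) ≤ u (s + 1, t)) : u (a, t) ≤ u (b, t) := by
  obtain ⟨n, rfl⟩ : ∃ n : ℕ, b = a + n := ⟨(b - a).toNat, by omega⟩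
  induction n with
  | zero => simp
  | succ n ih =>
    refine (ih (by omega) (fun s h1 h2 => h s h1 (by push_cast; omega))).trans
      ((h (a + n) (by omega) (by push_cast; omega)).trans (le_of_eq ?_))
    congr 2
    push_cast
    ring

/-- monotone along a column of sites -/
theorem col_mono {u : ℤ × ℤ → ℤ} {a b t : ℤ} (hab : a ≤ b)
    (h : ∀ s, a ≤ s → s < b → u (t, s) ≤ u (t, s + 1)) : u (t, a) ≤ u (t, b) := by
  obtain ⟨n, rfl⟩ : ∃ n : ℕ, b = a + n := ⟨(b - a).toNat, by omega⟩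
  induction n with
  | zero => simp
  | succ n ih =>
    refine (ih (by omega) (fun s h1 h2 => h s h1 (by push_cast; omega))).trans
      ((h (a + n) (by omega) (by push_cast; omega)).trans (le_of_eq ?_))
    congr 2
    push_cast
    ring

/-- **landing**: a strand which passes `st e0 ξ i` in the half box, whose left site is joined to a
bottom site `p` by open squares and whose right site is joined to a bottom site `p'` west of `p` by
closed squares of the half box, leaves the half box through its bottom side -/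
theorem land {x r : ℤ} {e0 : Ed} {ξ : Cfg} {i : ℕ} (h0 : tlv e0 ∉ hbF x r)
    (hi : hdv (st e0 ξ i) ∈ hbF x r) {p p' : ℤ × ℤ} (hp2 : p.2 = 0) (hp1 : p.1 ≤ x + r + 1)
    (hq2 : p'.2 = 0) (hq1 : x - r ≤ p'.1) (hpq : p'.1 < p.1)
    (hp : Oc (hbF x r) ξ (ls (st e0 ξ i)) p) (hq : Dc (hbF x r) ξ (rs (st e0 ξ i)) p') :
    ∃ y, st (st e0 ξ i) ξ (ex (hbF x r) (st e0 ξ i) ξ) = Sum.inr (y, -1) ∧ x - r ≤ y ∧ y ≤ x + r ∧
      hdv (Sum.inr (y, -1) : Ed) = (y, -1) ∧
      ∀ j < ex (hbF x r) (st e0 ξ i) ξ, hdv (st (st e0 ξ i) ξ j) ∈ hbF x r := by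
  classical
  obtain ⟨m, n, hmi, hin, hm1, hmn, hn⟩ := window h0 hi
  have hIe : Ex (↑(hbF x r) : Set (ℤ × ℤ)) := ex_of_coConn (co_rect _ _ _ _)
  have hst : ∀ k, st (st e0 ξ m) ξ k = st e0 ξ (m + k) := fun k => (Bs.st_add m k).symm
  have hn' : hdv (st (st e0 ξ m) ξ (n - m)) ∉ (↑(hbF x r) : Set (ℤ × ℤ)) := by
    rw [hst, Nat.add_sub_cancel' (by omega)]
    exact_mod_cast hn
  obtain ⟨u, hu⟩ := walk_pot hIe (e0 := st e0 ξ m) (ξ := ξ) (n := n - m) (by exact_mod_cast hm1) hn'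
  have hc : 1 ≤ cnt (st e0 ξ m) ξ (n - m) (st e0 ξ i) := by
    have := one_le_cnt (e0 := st e0 ξ m) (ξ := ξ) (n := n - m) (i := i - m) (by omega)
    rwa [hst, Nat.add_sub_cancel' hmi] at this
  have h3 := hu _ (Or.inl (by exact_mod_cast hi))
  have h4 := pot_Oc hu (by exact_mod_cast hm1) hn' (fun v hv => by exact_mod_cast hv)
    (H318.even_ls _) hp
  have h5 := pot_Dc hu (by exact_mod_cast hm1) hn' (fun v hv => by exact_mod_cast hv)
    (H318.odd_rs _) hq
  -- an exit through the bottom row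
  have h7 : ∃ s, x - r ≤ s ∧ s ≤ x + r ∧ hdv (Sum.inr (s, -1)) = (s, -1) ∧
      cnt (st e0 ξ m) ξ (n - m) (Sum.inr (s, -1)) ≠ 0 := by
    by_contra hcon
    push Not at hcon
    have hle : u (p'.1 + (p.1 - p'.1), 0) ≤ u (p'.1, 0) := by
      have hstep : ∀ s, p'.1 ≤ s → s < p.1 → -u (s, 0) ≤ -u (s + 1, 0) := by
        intro s h8 h9
        have hmem : (s, (0 : ℤ)) ∈ hbF x r := by
          rw [mem_hbF']
          rw [mem_hbF'] at hi
          dsimp only
          omega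
        rcases sq_inr (s, (-1 : ℤ)) with ⟨a1, a2, -, a3, a4⟩ | ⟨a1, a2, -, a3, a4⟩
        · have h10 := hcon s (by omega) (by omega) a1
          have h9 := hu (Sum.inr (s, -1)) (Or.inr (by rw [a2]; simpa using hmem))
          rw [h10, a3, a4] at h9
          simp at h9
          omega
        · have h9 := hu (Sum.inr (s, -1)) (Or.inl (by rw [a1]; simpa using hmem))
          have h10 := cnt_nonneg (st e0 ξ m) ξ (n - m) (Sum.inr (s, -1))
          rw [a3, a4] at h9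
          simp at h9
          omega
      have := row_mono (u := fun s => -u s) (t := 0) hpq.le hstep
      rw [show p'.1 + (p.1 - p'.1) = p.1 by ring]
      omega
    have e1 : p = (p.1, 0) := by rw [← hp2]
    have e2 : p' = (p'.1, 0) := by rw [← hq2]
    rw [show p'.1 + (p.1 - p'.1) = p.1 by ring, ← e1, ← e2] at hle
    omega
  obtain ⟨s, hs1, hs2, hs3, hs4⟩ := h7
  obtain ⟨k, hk1, hk2⟩ := cnt_pos hs4
  rw [hst] at hk2
  have hkn : m + k = n := by
    by_contra hcon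
    have h8 := hmn (m + k) (by omega) (by omega)
    rw [hk2, hs3, mem_hbF'] at h8
    omega
  have hex : ex (hbF x r) (st e0 ξ i) ξ = n - i := by
    refine Bs.hit_eq_of (Or.inr ?_) fun j hj => ⟨Set.notMem_empty _, ?_⟩
    · rw [← Bs.st_add, Nat.add_sub_cancel' hin.le]
      exact hn
    · rw [← Bs.st_add]
      exact hmn _ (by omega) (by omega)
  refine ⟨s, ?_, hs1, hs2, hs3, fun j hj => ?_⟩
  · rw [hex, ← Bs.st_add, Nat.add_sub_cancel' hin.le, ← hkn, hk2]
  · rw [hex] at hj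
    rw [← Bs.st_add]
    exact hmn _ (by omega) (by omega)

/-! ### the shape of a gate -/

theorem gt_hdv {K3 K x n : ℤ} {γ : Cfg} {e : Ed} (h : Gt K3 K x n γ e) : ∃ y, |y - x| ≤ 4 * n ∧
    e = Sum.inr (y, 4 * n - 1) ∧ hdv e = (y, 4 * n - 1) ∧ tlv e = (y, 4 * n) ∧
    ls e = (y + 1, 4 * n) ∧ rs e = (y, 4 * n) := by
  obtain ⟨⟨y, rfl, hy, hyx⟩, -⟩ := h
  have hev : Even (y + (4 * n - 1)) := by
    rw [Int.even_iff]
    rw [Int.odd_iff] at hy
    omega
  refine ⟨y, hyx, rfl, ?_, ?_, ?_, ?_⟩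
  · simp [hdv, hev]
  · simp only [tlv, hev, if_true, Prod.mk.injEq, true_and]; ring
  · simp only [ls, hev, if_true, Prod.mk.injEq, true_and]; ring
  · simp only [rs, hev, if_true, Prod.mk.injEq, true_and]; ring

/-- the feet of the two paths of a gate -/
theorem gt_feet {K3 K x n : ℤ} {γ : Cfg} {e : Ed} (hn : 1 ≤ n) (h : Gt K3 K x n γ e) :
    (∃ p : ℤ × ℤ, p.2 = 0 ∧ x < p.1 ∧ x + K3 * n + 1 ≤ p.1 ∧ p.1 ≤ x + K * n + 1 ∧
      Oc (Aq K3 K x n) γ (ls e) p) ∧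
    (∃ p : ℤ × ℤ, p.2 = 0 ∧ p.1 < x ∧ p.1 ≤ x - K3 * n ∧ x - K * n ≤ p.1 ∧
      Dc (Aq K3 K x n) γ (rs e) p) := by
  obtain ⟨y, hy, he, h1, h2, h3, h4⟩ := gt_hdv h
  obtain ⟨-, ⟨p, p1, p2, p3⟩, ⟨q, q1, q2, q3⟩⟩ := h
  have hpar : Even (p.1 + p.2) := by
    obtain ⟨-, hh⟩ := p3
    have key : Even (p.1 + p.2) := by
      have h0 := H318.even_ls e
      clear p1 p2
      induction hh with
      | refl => exact h0
      | tail _ hab ih => exact H318.even_step hab.1 ih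
    exact key
  have hqar : Odd (q.1 + q.2) := by
    obtain ⟨-, hh⟩ := q3
    have h0 := H318.odd_rs e
    clear q1 q2
    induction hh with
    | refl => exact h0
    | tail _ hab ih => exact H318.odd_step hab.1 ih
  obtain ⟨v, v1, v2, v3⟩ := end_cor p3 (fun hh => by
    have := congrArg Prod.snd hh
    rw [h3, p1] at this
    dsimp only at this
    omega)
  obtain ⟨w, w1, w2, w3⟩ := end_cor q3 (fun hh => by
    have := congrArg Prod.snd hh
    rw [h4, q1] at this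
    dsimp only at this
    omega)
  rw [mem_Aq] at v1 w1
  refine ⟨⟨p, p1, p2, ?_, by omega, p3⟩, ⟨q, q1, q2, ?_, by omega, q3⟩⟩
  · by_contra hc
    have h5 : v.2 = 0 := by omega
    have h6 : ¬ (x - K3 * n ≤ v.1 ∧ v.1 ≤ x + K3 * n) := fun h7 => v1.2 ⟨h7, by omega, by omega⟩
    omega
  · by_contra hc
    have h5 : w.2 = 0 := by omega
    have h6 : ¬ (x - K3 * n ≤ w.1 ∧ w.1 ≤ x + K3 * n) := fun h7 => w1.2 ⟨h7, by omega, by omega⟩
    omega

end Vale.Agent.P167.H318.UQ
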