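import Vale.Agent.P167.H318.Q.One

/-!
# P167, general `q`, block Q-NSYM: the gate is unique
-/

namespace Vale.Agent.P167.H318.UQ

open Finset Vale.Agent.P167 Vale.Agent.P167.FK Vale.Agent.P167.H318 Relation
open Vale.Agent.P145.FB (PStep PConn)
open Vale.Agent.P167.H685.Q (hbF mem_hbF Wr One Ent)
open Vale.Agent.P167.H632 (Ex sq_inl sq_inr ex_rect)
open Vale.Agent.P167.H318 (st ex hit cnt)

section
variable {K3 K x n : ℤ} {ξ : Cfg} {g : Ed} {N : ℕ} {u : ℤ × ℤ → ℤ}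

/-- a step of the potential in the bottom row -/
theorem pot_row (hu : ∀ b : Ed, (hdv b ∈ Aq K3 K x n ∨ tlv b ∈ Aq K3 K x n) →
      u (ls b) = u (rs b) + cnt g ξ N b) {s t : ℤ}
    (h : ¬ (tlv (Sum.inr (s, t) : Ed) = (s, t + 1) ∧ cnt g ξ N (Sum.inr (s, t)) ≠ 0))
    (hm : (s, t + 1) ∈ Aq K3 K x n) : u (s + 1, t + 1) ≤ u (s, t + 1) := by
  have hnn' := cnt_nonneg g ξ N (Sum.inr (s, t))
  rcases sq_inr (s, t) with ⟨a1, a2, -, a3, a4⟩ | ⟨a1, a2, -, a3, a4⟩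
  · have h9 := hu (Sum.inr (s, t)) (Or.inr (by rw [a2]; exact hm))
    have h10 : cnt g ξ N (Sum.inr (s, t)) = 0 := by
      by_contra hne
      exact h ⟨a2, hne⟩
    rw [a3, a4, h10] at h9
    dsimp only at h9
    omega
  · have h9 := hu (Sum.inr (s, t)) (Or.inl (by rw [a1]; exact hm))
    rw [a3, a4] at h9
    dsimp only at h9
    omega

/-- a step of the potential on the west side of `C` -/
theorem pot_colw (hu : ∀ b : Ed, (hdv b ∈ Aq K3 K x n ∨ tlv b ∈ Aq K3 K x n) →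
      u (ls b) = u (rs b) + cnt g ξ N b) {s t : ℤ}
    (h : ¬ (tlv (Sum.inl (s, t) : Ed) = (s, t) ∧ cnt g ξ N (Sum.inl (s, t)) ≠ 0))
    (hm : (s, t) ∈ Aq K3 K x n) : u (s + 1, t + 1) ≤ u (s + 1, t) := by
  have hnn' := cnt_nonneg g ξ N (Sum.inl (s, t))
  rcases sq_inl (s, t) with ⟨a1, a2, -, a3, a4⟩ | ⟨a1, a2, -, a3, a4⟩
  · have h9 := hu (Sum.inl (s, t)) (Or.inl (by rw [a1]; exact hm))
    rw [a3, a4] at h9
    dsimp only at h9
    omega
  · have h9 := hu (Sum.inl (s, t)) (Or.inr (by rw [a2]; exact hm))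
    have h10 : cnt g ξ N (Sum.inl (s, t)) = 0 := by
      by_contra hne
      exact h ⟨a2, hne⟩
    rw [a3, a4, h10] at h9
    dsimp only at h9
    omega

/-- a step of the potential on the east side of `C` -/
theorem pot_cole (hu : ∀ b : Ed, (hdv b ∈ Aq K3 K x n ∨ tlv b ∈ Aq K3 K x n) →
      u (ls b) = u (rs b) + cnt g ξ N b) {s t : ℤ}
    (h : ¬ (tlv (Sum.inl (s, t) : Ed) = (s + 1, t) ∧ cnt g ξ N (Sum.inl (s, t)) ≠ 0))
    (hm : (s + 1, t) ∈ Aq K3 K x n) : u (s + 1, t) ≤ u (s + 1, t + 1) := by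
  have hnn' := cnt_nonneg g ξ N (Sum.inl (s, t))
  rcases sq_inl (s, t) with ⟨a1, a2, -, a3, a4⟩ | ⟨a1, a2, -, a3, a4⟩
  · have h9 := hu (Sum.inl (s, t)) (Or.inr (by rw [a2]; exact hm))
    have h10 : cnt g ξ N (Sum.inl (s, t)) = 0 := by
      by_contra hne
      exact h ⟨a2, hne⟩
    rw [a3, a4, h10] at h9
    dsimp only at h9
    omega
  · have h9 := hu (Sum.inl (s, t)) (Or.inl (by rw [a1]; exact hm))
    rw [a3, a4] at h9
    dsimp only at h9
    omega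

/-- the potential increases on the west part of the inner boundary: a passed exit -/
theorem west_exit (hn : 1 ≤ n) (hA3 : 8 * n ≤ K3 * n) (hAK : K3 * n + 8 * n ≤ K * n)
    (hu : ∀ b : Ed, (hdv b ∈ Aq K3 K x n ∨ tlv b ∈ Aq K3 K x n) →
      u (ls b) = u (rs b) + cnt g ξ N b) {a y : ℤ} (ha1 : x - K * n ≤ a) (ha2 : a ≤ x - K3 * n)
    (hy1 : x - K3 * n ≤ y) (hy2 : y ≤ x + K3 * n) (hlt : u (a, 0) < u (y, 4 * n)) :
    ∃ b : Ed, cnt g ξ N b ≠ 0 ∧ hdv b ∉ Aq K3 K x n ∧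
      ((∃ s, s < x - K3 * n ∧ b = Sum.inr (s, -1)) ∨ (∃ t, b = Sum.inl (x - K3 * n - 1, t)) ∨
        ∃ s, s < y ∧ b = Sum.inr (s, 4 * n - 1)) := by
  by_contra hcon
  push Not at hcon
  have memA : ∀ v : ℤ × ℤ, v ∈ Aq K3 K x n ↔
      ((x - K * n ≤ v.1 ∧ v.1 ≤ x + K * n) ∧ 0 ≤ v.2 ∧ v.2 ≤ K * n) ∧
      ¬ ((x - K3 * n ≤ v.1 ∧ v.1 ≤ x + K3 * n) ∧ 0 ≤ v.2 ∧ v.2 ≤ 4 * n - 1) := fun v => mem_Aq
  have e1 : (-1 : ℤ) + 1 = 0 := by norm_num
  have e2 : 4 * n - 1 + 1 = 4 * n := by ring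
  have W1 := row_mono (u := fun v => -u v) (t := 0) (a := a) (b := x - K3 * n) ha2
    fun s h1 h2 => neg_le_neg (by
      have := pot_row hu (s := s) (t := -1) (by
        rintro ⟨h3, h4⟩
        refine (hcon _ h4 ?_).1 s h2 rfl
        rcases sq_inr (s, (-1 : ℤ)) with ⟨a1, a2, -⟩ | ⟨a1, a2, -⟩
        · rw [a1, memA]; dsimp only; omega
        · rw [a2, Prod.mk.injEq] at h3; omega) (by rw [memA]; dsimp only; omega)
      rwa [e1] at this)
  have W2 := col_mono (u := fun v => -u v) (t := x - K3 * n) (a := 0) (b := 4 * n) (by omega)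
    fun t h1 h2 => neg_le_neg (by
      have := pot_colw hu (s := x - K3 * n - 1) (t := t) (by
        rintro ⟨h3, h4⟩
        refine (hcon _ h4 ?_).2.1 t rfl
        rcases sq_inl (x - K3 * n - 1, t) with ⟨a1, a2, -⟩ | ⟨a1, a2, -⟩
        · rw [a2, Prod.mk.injEq] at h3; dsimp only at h3; omega
        · rw [a1, memA]; dsimp only; omega) (by rw [memA]; dsimp only; omega)
      rwa [show x - K3 * n - 1 + 1 = x - K3 * n by ring] at this)
  have W3 := row_mono (u := fun v => -u v) (t := 4 * n) (a := x - K3 * n) (b := y) hy1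
    fun s h1 h2 => neg_le_neg (by
      have := pot_row hu (s := s) (t := 4 * n - 1) (by
        rintro ⟨h3, h4⟩
        refine (hcon _ h4 ?_).2.2 s h2 rfl
        rcases sq_inr (s, 4 * n - 1) with ⟨a1, a2, -⟩ | ⟨a1, a2, -⟩
        · rw [a1, memA]; dsimp only; omega
        · rw [a2, Prod.mk.injEq] at h3; omega) (by rw [e2, memA]; dsimp only; omega)
      rwa [e2] at this)
  omega

/-- the potential increases on the east part of the inner boundary: a passed exit -/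
theorem east_exit (hn : 1 ≤ n) (hA3 : 8 * n ≤ K3 * n) (hAK : K3 * n + 8 * n ≤ K * n)
    (hu : ∀ b : Ed, (hdv b ∈ Aq K3 K x n ∨ tlv b ∈ Aq K3 K x n) →
      u (ls b) = u (rs b) + cnt g ξ N b) {c y : ℤ} (hc1 : x + K3 * n + 1 ≤ c)
    (hc2 : c ≤ x + K * n + 1) (hy1 : x - K3 * n ≤ y) (hy2 : y ≤ x + K3 * n + 1)
    (hlt : u (y, 4 * n) < u (c, 0)) :
    ∃ b : Ed, cnt g ξ N b ≠ 0 ∧ hdv b ∉ Aq K3 K x n ∧
      ((∃ s, x + K3 * n < s ∧ b = Sum.inr (s, -1)) ∨ (∃ t, b = Sum.inl (x + K3 * n, t)) ∨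
        ∃ s, y ≤ s ∧ b = Sum.inr (s, 4 * n - 1)) := by
  by_contra hcon
  push Not at hcon
  have memA : ∀ v : ℤ × ℤ, v ∈ Aq K3 K x n ↔
      ((x - K * n ≤ v.1 ∧ v.1 ≤ x + K * n) ∧ 0 ≤ v.2 ∧ v.2 ≤ K * n) ∧
      ¬ ((x - K3 * n ≤ v.1 ∧ v.1 ≤ x + K3 * n) ∧ 0 ≤ v.2 ∧ v.2 ≤ 4 * n - 1) := fun v => mem_Aq
  have e1 : (-1 : ℤ) + 1 = 0 := by norm_num
  have e2 : 4 * n - 1 + 1 = 4 * n := by ring
  have W1 := row_mono (u := fun v => -u v) (t := 4 * n) (a := y) (b := x + K3 * n + 1) hy2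
    fun s h1 h2 => neg_le_neg (by
      have := pot_row hu (s := s) (t := 4 * n - 1) (by
        rintro ⟨h3, h4⟩
        refine (hcon _ h4 ?_).2.2 s h1 rfl
        rcases sq_inr (s, 4 * n - 1) with ⟨a1, a2, -⟩ | ⟨a1, a2, -⟩
        · rw [a1, memA]; dsimp only; omega
        · rw [a2, Prod.mk.injEq] at h3; omega) (by rw [e2, memA]; dsimp only; omega)
      rwa [e2] at this)
  have W2 := col_mono (u := u) (t := x + K3 * n + 1) (a := 0) (b := 4 * n) (by omega)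
    fun t h1 h2 => by
      have := pot_cole hu (s := x + K3 * n) (t := t) (by
        rintro ⟨h3, h4⟩
        refine (hcon _ h4 ?_).2.1 t rfl
        rcases sq_inl (x + K3 * n, t) with ⟨a1, a2, -⟩ | ⟨a1, a2, -⟩
        · rw [a1, memA]; dsimp only; omega
        · rw [a2, Prod.mk.injEq] at h3; omega) (by rw [memA]; dsimp only; omega)
      exact this
  have W3 := row_mono (u := fun v => -u v) (t := 0) (a := x + K3 * n + 1) (b := c) hc1
    fun s h1 h2 => neg_le_neg (by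
      have := pot_row hu (s := s) (t := -1) (by
        rintro ⟨h3, h4⟩
        refine (hcon _ h4 ?_).1 s (by omega) rfl
        rcases sq_inr (s, (-1 : ℤ)) with ⟨a1, a2, -⟩ | ⟨a1, a2, -⟩
        · rw [a1, memA]; dsimp only; omega
        · rw [a2, Prod.mk.injEq] at h3; omega) (by rw [memA]; dsimp only; omega)
      rwa [e1] at this)
  omega

end

/-- left sites of a strand are joined along the strand -/
theorem oc_strand {A : Finset (ℤ × ℤ)} {g : Ed} {ξ : Cfg} {N : ℕ}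
    (h : ∀ k < N, hdv (st g ξ k) ∈ A) : Oc A ξ (ls g) (ls (st g ξ N)) := by
  induction N with
  | zero => exact ⟨Set.mem_univ _, .refl⟩
  | succ N ih =>
    have h1 := ih fun k hk => h k (by omega)
    have h3 := h N (by omega)
    obtain ⟨n1, n2⟩ := H166.nx_step ξ (st g ξ N)
    rw [Bs.st_succ]
    rcases hb : ξ (hdv (st g ξ N)) with _ | _
    · rw [(n2 hb).1]; exact h1
    · obtain ⟨a, b⟩ := h1
      obtain ⟨s1, s2, s3⟩ := (n1 hb).1
      refine ⟨a, b.tail ⟨⟨s1, s2, ?_⟩, Set.mem_univ _⟩⟩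
      rw [Set.mem_singleton_iff.1 s3]
      exact ⟨hb, h3⟩

theorem oc_even {A : Finset (ℤ × ℤ)} {ξ : Cfg} {s t : ℤ × ℤ} (hs : Even (s.1 + s.2))
    (h : Oc A ξ s t) : Even (t.1 + t.2) := by
  obtain ⟨-, hh⟩ := h
  induction hh with
  | refl => exact hs
  | tail _ hab ih => exact H318.even_step hab.1 ih

theorem gt_aux {K3 K x n : ℤ} {ξ : Cfg} {e e' : Ed} {y y' : ℤ} (hn : 1 ≤ n) (h8 : 8 ≤ K3)
    (hK : K3 + 8 ≤ K) (hG : Gt K3 K x n ξ e) (hG' : Gt K3 K x n ξ e')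
    (hy : |y - x| ≤ 4 * n) (hy' : |y' - x| ≤ 4 * n) (hrs : rs e = (y, 4 * n))
    (hls' : ls e' = (y' + 1, 4 * n)) (hlt : y' < y) : False := by
  classical
  have hA3 : 8 * n ≤ K3 * n := by nlinarith
  have hAK : K3 * n + 8 * n ≤ K * n := by nlinarith
  have ay := abs_le.1 hy
  have ay' := abs_le.1 hy'
  obtain ⟨-, ⟨p1, q2, -, q1, q3, q⟩⟩ := gt_feet hn hG
  obtain ⟨⟨p2, r2, -, r1, r3, r⟩, -⟩ := gt_feet hn hG'
  have memA : ∀ v : ℤ × ℤ, v ∈ Aq K3 K x n ↔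
      ((x - K * n ≤ v.1 ∧ v.1 ≤ x + K * n) ∧ 0 ≤ v.2 ∧ v.2 ≤ K * n) ∧
      ¬ ((x - K3 * n ≤ v.1 ∧ v.1 ≤ x + K3 * n) ∧ 0 ≤ v.2 ∧ v.2 ≤ 4 * n - 1) := fun v => mem_Aq
  -- parities
  have hyo : Odd (y + 4 * n) := by
    have := H318.odd_rs e
    rwa [hrs] at this
  have hy'e : Even (y' + 1 + 4 * n) := by
    have := H318.even_ls e'
    rwa [hls'] at this
  have hlt' : y' + 1 < y := by
    rcases lt_or_eq_of_le (show y' + 1 ≤ y by omega) with h | h
    · exact h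
    · exfalso
      rw [h, Int.even_iff] at hy'e
      rw [Int.odd_iff] at hyo
      omega
  -- the last site of the cluster before `rs e`
  obtain ⟨t, ht, htmax⟩ := ((Finset.Icc (y' + 1) (y - 1)).filter
    fun s => Oc (Aq K3 K x n) ξ (ls e') (s, 4 * n)).exists_max_image id
    ⟨y' + 1, by
      rw [Finset.mem_filter, Finset.mem_Icc]
      exact ⟨⟨le_rfl, by omega⟩, by rw [hls']; exact ⟨Set.mem_univ _, .refl⟩⟩⟩
  rw [Finset.mem_filter, Finset.mem_Icc] at ht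
  obtain ⟨⟨t1, t2⟩, t3⟩ := ht
  have hte : Even (t + 4 * n) := oc_even (H318.even_ls e') t3
  have hto : ¬ Even (t + (4 * n - 1)) := by
    rw [Int.even_iff] at hte ⊢
    omega
  set b : Ed := Sum.inr (t, 4 * n - 1) with hb
  have ee : 4 * n - 1 + 1 = 4 * n := by ring
  have b1 : hdv b = (t, 4 * n) := by simp [hb, hdv, hto]
  have b2 : tlv b = (t, 4 * n - 1) := by simp [hb, tlv, hto]
  have b3 : ls b = (t, 4 * n) := by simp [hb, ls, hto]
  have b4 : rs b = (t + 1, 4 * n) := by simp [hb, rs, hto]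
  have h0 : tlv b ∉ Aq K3 K x n := by
    rw [b2, memA]; dsimp only; omega
  set N := ex (Aq K3 K x n) b ξ with hN
  have hNs : hdv (st b ξ N) ∉ Aq K3 K x n := Bs.ex_spec h0 ξ
  have hin : ∀ k < N, hdv (st b ξ k) ∈ Aq K3 K x n := fun k hk => Bs.ex_min hk
  have hEx : Ex (↑(Aq K3 K x n) : Set (ℤ × ℤ)) := ex_of_coConn (co_Aq (by omega) (by omega))
  obtain ⟨u, hu⟩ := walk_pot hEx (e0 := b) (ξ := ξ) (n := N) (by exact_mod_cast h0)
    (by exact_mod_cast hNs)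
  have hu' : ∀ b' : Ed, (hdv b' ∈ Aq K3 K x n ∨ tlv b' ∈ Aq K3 K x n) →
      u (ls b') = u (rs b') + cnt b ξ N b' := fun b' hb' => hu b' (by exact_mod_cast hb')
  have c1 : cnt b ξ N b = 1 := cnt_eq_one (i := 0) h0 hin (Nat.zero_le _)
  have f0 := hu' b (Or.inl (by rw [b1, memA]; dsimp only; omega))
  rw [b3, b4, c1] at f0
  have f1 : u (ls e') = u (t, 4 * n) := pot_Oc hu (by exact_mod_cast h0) (by exact_mod_cast hNs)
    (fun v hv => by exact_mod_cast hv) (H318.even_ls _) t3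
  have f2 : u (ls e') = u p2 := pot_Oc hu (by exact_mod_cast h0) (by exact_mod_cast hNs)
    (fun v hv => by exact_mod_cast hv) (H318.even_ls _) r
  have f3 : u (rs e) = u p1 := pot_Dc hu (by exact_mod_cast h0) (by exact_mod_cast hNs)
    (fun v hv => by exact_mod_cast hv) (H318.odd_rs _) q
  -- between `t + 1` and `rs e`
  have f4 := row_mono (u := fun v => -u v) (t := 4 * n) (a := t + 1) (b := y) (by omega)
    fun s h1 h2 => neg_le_neg (by
      have := pot_row hu' (s := s) (t := 4 * n - 1) (by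
        rintro ⟨h3, h4⟩
        obtain ⟨k, hk, hk2⟩ := cnt_pos h4
        have h5 : Oc (Aq K3 K x n) ξ (ls e') (ls (st b ξ k)) := by
          have h6 := oc_strand (A := Aq K3 K x n) (g := b) (ξ := ξ) (N := k)
            fun j hj => hin j (by omega)
          rw [b3] at h6
          exact ⟨Set.mem_univ _, t3.2.trans h6.2⟩
        have h7 : ls (st b ξ k) = (s + 1, 4 * n) := by
          rw [hk2]
          rcases sq_inr (s, 4 * n - 1) with ⟨a1, a2, -, a3, a4⟩ | ⟨a1, a2, -, a3, a4⟩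
          · rw [a3, ee]
          · rw [a2, Prod.mk.injEq] at h3; omega
        rw [h7] at h5
        have h8 := oc_even (H318.even_ls e') h5
        dsimp only at h8
        have h9 : s + 1 ≠ y := fun h => by
          rw [h, Int.even_iff] at h8
          rw [Int.odd_iff] at hyo
          omega
        have h10 := htmax (s + 1) (by
          rw [Finset.mem_filter, Finset.mem_Icc]
          exact ⟨⟨by omega, by omega⟩, h5⟩)
        simp only [id] at h10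
        omega) (by rw [ee, memA]; dsimp only; omega)
      rwa [ee] at this)
  rw [hrs] at f3
  rw [hls'] at f1 f2
  have ep1 : p1 = (p1.1, 0) := by rw [← q2]
  have ep2 : p2 = (p2.1, 0) := by rw [← r2]
  rw [ep1] at f3
  rw [ep2] at f2
  obtain ⟨w1, w2, w3, w4⟩ := west_exit hn hA3 hAK hu' (a := p1.1) (y := y' + 1) (by omega) (by omega)
    (by omega) (by omega) (by omega)
  obtain ⟨v1, v2, v3, v4⟩ := east_exit hn hA3 hAK hu' (c := p2.1) (y := y) (by omega) (by omega)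
    (by omega) (by omega) (by omega)
  have last : ∀ w : Ed, cnt b ξ N w ≠ 0 → hdv w ∉ Aq K3 K x n → w = st b ξ N := by
    intro w hw1 hw2
    obtain ⟨k, hk, hk2⟩ := cnt_pos hw1
    rcases Nat.lt_or_ge k N with h | h
    · exact absurd (hin k h) (by rw [hk2]; exact hw2)
    · rw [← hk2, show k = N by omega]
  have hvw : w1 = v1 := (last w1 w2 w3).trans (last v1 v2 v3).symm
  subst hvw
  rcases w4 with ⟨s, s1, s2⟩ | ⟨s, s2⟩ | ⟨s, s1, s2⟩ <;>
    rcases v4 with ⟨s', s1', s2'⟩ | ⟨s', s2'⟩ | ⟨s', s1', s2'⟩ <;>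
    rw [s2] at s2' <;> simp only [Sum.inr.injEq, Sum.inl.injEq, Prod.mk.injEq, reduceCtorEq] at s2' <;>
    omega

/-- **the gate is unique** -/
theorem gt_unique {K3 K x n : ℤ} {ξ : Cfg} {e e' : Ed} (hn : 1 ≤ n) (h8 : 8 ≤ K3)
    (hK : K3 + 8 ≤ K) (hG : Gt K3 K x n ξ e) (hG' : Gt K3 K x n ξ e') : e = e' := by
  obtain ⟨y, hy, he, -, -, hls, hrs⟩ := gt_hdv hG
  obtain ⟨y', hy', he', -, -, hls', hrs'⟩ := gt_hdv hG'
  rcases lt_trichotomy y y' with h | h | h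
  · exact (gt_aux hn h8 hK hG' hG hy' hy hrs' hls h).elim
  · rw [he, he', h]
  · exact (gt_aux hn h8 hK hG hG' hy hy' hrs hls' h).elim

end Vale.Agent.P167.H318.UQ
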